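import Vale.Agent.P287Z.T.Gm
import Vale.Agent.P287Z.St

/-!
# The output of block T2
-/

open MvPolynomial

namespace Vale.Agent.P287Z.T

open O.V

/-- **T2**: finite models of graded matrix factorizations -/
def T2 : Prop := ∀ (Mx : Matrix (Fin 4) (Fin 4) A3), IsFibrationMatrix Mx →
  ∃ N : ∀ {n : ℕ} (X : GMF (cubicForm Mx) n), ExL X → FM Mx,
    ∀ {m n : ℕ} (X : GMF (cubicForm Mx) m) (Y : GMF (cubicForm Mx) n) (hX : ExL X) (hY : ExL Y)
      (j : ℤ), Nonempty (HQ (ZM X Y j) (BM X Y j) ≃ₗ[ℂ]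
        HQ (ZC (N X hX).N (N Y hY).N j) (BC (N X hX).N (N Y hY).N j))

end Vale.Agent.P287Z.T
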