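import Vale.Agent.P287Z.T.Xi
import Vale.Agent.P287Z.T.Sk

/-!
# Block T2: finite models of graded matrix factorizations
-/

set_option linter.unusedSectionVars false
set_option linter.unusedSimpArgs false
set_option linter.unusedVariables false

open MvPolynomial Module

namespace Vale.Agent.P287Z.T

open O.V

variable {Mx : Matrix (Fin 4) (Fin 4) A3} {m n : ℕ}

theorem fb_of (h : IsFibrationMatrix Mx) : FB Mx where
  symm := h.symm
  h2 i j := by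
    have h1 := hg_of_hom (h.homogeneous i.castSucc j.castSucc)
    fin_cases i <;> fin_cases j <;> exact h1
  h4 i := by
    have h1 := hg_of_hom (h.homogeneous i.castSucc 3)
    fin_cases i <;> exact h1
  h6 := hg_of_hom (h.homogeneous 3 3)

theorem th_base (r : A3) : th (aeval ![X 0, X 1, X 2] r) = C r := by
  rw [← AlgEquiv.eq_symm_apply, th_symm, aevalTower_C]

theorem th_cubic (hM : Mx.IsSymm) : th (cubicForm Mx) = FS Mx := by
  have h3 : th (X 3) = X 0 := by simp [th_apply]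
  have h4 : th (X 4) = X 1 := by simp [th_apply]
  have h5 : th (X 5) = X 2 := by simp [th_apply]
  have s0 : Mx 3 0 = Mx 0 3 := hM.apply 0 3
  have s1 : Mx 3 1 = Mx 1 3 := hM.apply 1 3
  have s2 : Mx 3 2 = Mx 2 3 := hM.apply 2 3
  simp only [cubicForm, FS, dotProduct, Matrix.mulVec, Fin.sum_univ_four, Fin.sum_univ_three,
    Matrix.map_apply, Matrix.cons_val_zero, Matrix.cons_val_one, Matrix.cons_val, map_add, map_mul,
    th_base, h3, h4, h5, map_one, s0, s1, s2, Fin.castSucc_zero, Fin.castSucc_one,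
    Fin.reduceCastSucc]
  ring

theorem cc_th (f : S6) : map constantCoeff (th f) = x0 f := by
  induction f using MvPolynomial.induction_on with
  | C a => simp [th_apply, x0]
  | add p q hp hq => rw [map_add, map_add, map_add, hp, hq]
  | mul_X p i hp =>
    rw [map_mul, map_mul, map_mul, hp]
    congr 1
    fin_cases i <;> simp [th_apply, x0]

theorem x0_cubic (hM : FB Mx) : x0 (cubicForm Mx) = 0 := by
  rw [← cc_th, th_cubic hM.symm, FS]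
  simp only [map_add, map_sum, map_mul, map_C, hg_const (hM.h2 _ _) two_ne_zero,
    hg_const (hM.h4 _) four_ne_zero, hg_const hM.h6 (by norm_num), map_zero, zero_mul,
    Finset.sum_const_zero, mul_zero, add_zero]

/-- the matrix factorization over `A[y]` -/
noncomputable def xd (hM : FB Mx) (Y : GMF (cubicForm Mx) n) : XD Mx (GS Y.p) where
  D := lin Y.d
  lin := lin_smul _
  deg := dk_lin Y.deg
  sq v := by
    rw [← LinearMap.comp_apply, ← lin_mul, Y.sq, lin_apply, ← th_cubic hM.symm]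
    funext i
    simp [Matrix.mulVec, dotProduct, Matrix.one_apply, apply_ite th]
  gr := (grB_GS _).isGr
  hy := hy_GS _

section

variable {M M' : Type} [AddCommGroup M] [Module A3 M] [Module SA M] [IsScalarTower A3 SA M]
  [AddCommGroup M'] [Module A3 M'] [Module SA M'] [IsScalarTower A3 SA M']
  [Module ℂ M] [IsScalarTower ℂ A3 M] [Module ℂ M'] [IsScalarTower ℂ A3 M']
  {G : ℤ → Submodule ℂ M} {G' : ℤ → Submodule ℂ M'}

theorem d_cw (hM : FB Mx) (Y : XD Mx G) (Y' : XD Mx G') {h : M →ₗ[A3] M'}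
    (hh : ∀ (r : SA) m, h (r • m) = r • h m) :
    (Y'.lm hM).E ∘ₗ cw h - cw h ∘ₗ (Y.lm hM).E = mat M' eI ∘ₗ cw (Y'.D ∘ₗ h - h ∘ₗ Y.D) := by
  refine LinearMap.ext fun v => ?_
  simp only [LinearMap.sub_apply, LinearMap.comp_apply, lm_apply, map_add, cw_eps, cw_KX h hh,
    cw_sub, cw_comp, map_sub]
  abel

theorem d_ecw (hM : FB Mx) (Y : XD Mx G) (Y' : XD Mx G') {h : M →ₗ[A3] M'}
    (hh : ∀ (r : SA) m, h (r • m) = r • h m) :
    (Y'.lm hM).E ∘ₗ mat M' eI ∘ₗ cw h + (mat M' eI ∘ₗ cw h) ∘ₗ (Y.lm hM).E =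
      cw (Y'.D ∘ₗ h + h ∘ₗ Y.D) := by
  refine LinearMap.ext fun v => ?_
  simp only [LinearMap.add_apply, LinearMap.comp_apply, lm_apply, map_add, cw_eps, cw_KX h hh,
    cw_add, cw_comp, eps_eps', eps_KX]
  abel

theorem cw_inj {f g : M →ₗ[A3] M'} (h : cw f = cw g) : f = g :=
  LinearMap.ext fun x => congrFun (LinearMap.congr_fun h fun _ => x) 0

theorem in0_fil (x : M) : in0 M x ∈ Fil M 0 := fun I hI =>
  Pi.single_eq_of_ne (by rintro rfl; simp [lv] at hI) _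

theorem qi_Z (hM : FB Mx) (Y : XD Mx G) (Y' : XD Mx G') {j : ℤ} {h : M →ₗ[A3] M'}
    (hd : h ∈ Dk G G' j) (hh : ∀ (r : SA) m, h (r • m) = r • h m) (hc : Y'.D ∘ₗ h = h ∘ₗ Y.D) :
    cw h ∈ ZC (Y.lm hM) (Y'.lm hM) j :=
  ⟨pp_cw hd, by rw [← sub_eq_zero, d_cw hM _ _ hh, hc, sub_self, cw_zero, LinearMap.comp_zero]⟩

theorem qi_B (hM : FB Mx) (Y : XD Mx G) (Y' : XD Mx G') {j : ℤ} {h : M →ₗ[A3] M'}
    (hd : h ∈ Dk G G' (j - 3)) (hh : ∀ (r : SA) m, h (r • m) = r • h m) :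
    cw (Y'.D ∘ₗ h + h ∘ₗ Y.D) ∈ BC (Y.lm hM) (Y'.lm hM) j :=
  ⟨mat _ eI ∘ₗ cw h, pp_ecw hd, (d_ecw hM _ _ hh).symm⟩

theorem qi_B' (hM : FB Mx) (Y : XD Mx G) (Y' : XD Mx G') (hv : Dv G) {j : ℤ} {g : M →ₗ[A3] M'}
    (hg : cw g ∈ BC (Y.lm hM) (Y'.lm hM) j) : ∃ h ∈ Dk G G' (j - 3),
      (∀ (r : SA) m, h (r • m) = r • h m) ∧ g = Y'.D ∘ₗ h + h ∘ₗ Y.D := by
  obtain ⟨ψ, h1, h2⟩ := hg
  obtain ⟨χ, c1, h, c2, c3, c4⟩ := key hM Y Y' hv (s := -1) rfl h1 (by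
    rw [neg_smul, one_smul, sub_neg_eq_add, ← h2, res_fil]
    intro x
    rw [cw_in0]
    exact in0_fil _)
  have c5 := pp_d (Y.lm hM) (Y'.lm hM) rfl c1
  have c6 := dd_zero (Y.lm hM) (Y'.lm hM) (- -1) χ
  obtain ⟨δ, hδ⟩ : ∃ δ, δ = (Y'.lm hM).E ∘ₗ χ - (- -1 : ℤ) • (χ ∘ₗ (Y.lm hM).E) := ⟨_, rfl⟩
  rw [← hδ] at c4 c5 c6
  have c7 : ψ - δ = mat _ eI ∘ₗ cw h := lin_ext (Mx := Mx) (s := -1)
    (sub_mem h1 (pp_of_eq c5 rfl (by ring))).2 (pp_ecw c2).2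
    (c4.trans (LinearMap.ext fun x => by simp only [LinearMap.comp_apply, cw_in0, eps_in0]))
  have c8 := d_ecw hM Y Y' c3
  have c9 : (Y'.lm hM).E ∘ₗ δ + δ ∘ₗ (Y.lm hM).E = 0 := by simpa using c6
  rw [← c7, LinearMap.comp_sub, LinearMap.sub_comp, sub_add_sub_comm, c9, sub_zero, ← h2] at c8
  exact ⟨h, c2, c3, cw_inj c8⟩

theorem qi_S (hM : FB Mx) (Y : XD Mx G) (Y' : XD Mx G') (hv : Dv G) {j : ℤ}
    {f : Lam M →ₗ[A3] Lam M'} (hf : f ∈ ZC (Y.lm hM) (Y'.lm hM) j) : ∃ h ∈ Dk G G' j,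
      (∀ (r : SA) m, h (r • m) = r • h m) ∧ Y'.D ∘ₗ h = h ∘ₗ Y.D ∧
        f - cw h ∈ BC (Y.lm hM) (Y'.lm hM) j := by
  obtain ⟨χ, c1, h, c2, c3, c4⟩ := key hM Y Y' hv (s := 1) rfl hf.1 (by
    rw [one_smul, hf.2, sub_self]
    exact zero_mem _)
  rw [neg_smul, one_smul, sub_neg_eq_add] at c4
  obtain ⟨δ, hδ⟩ : ∃ δ, δ = (Y'.lm hM).E ∘ₗ χ + χ ∘ₗ (Y.lm hM).E := ⟨_, rfl⟩
  rw [← hδ] at c4
  have c5 : δ ∈ BC (Y.lm hM) (Y'.lm hM) j := ⟨χ, c1, hδ⟩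
  have c6 := sub_mem hf (bc_le _ c5)
  have c7 : f - δ = cw h := lin_ext (Mx := Mx) (s := 1) c6.1.2 (pp_cw c2).2
    (c4.trans (LinearMap.ext fun x => by simp only [LinearMap.comp_apply, cw_in0]))
  refine ⟨h, c2, c3, ?_, ?_⟩
  · have c8 := d_cw hM Y Y' c3
    rw [← c7, c6.2, sub_self] at c8
    have c9 : cw (Y'.D ∘ₗ h - h ∘ₗ Y.D) = cw 0 := by
      refine LinearMap.ext fun v => ?_
      rw [← eps_eps' (cw _ v), ← LinearMap.comp_apply (mat _ eI) (cw _), ← c8,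
        LinearMap.zero_apply, map_zero, cw_zero, LinearMap.zero_apply]
    exact sub_eq_zero.1 (cw_inj c9)
  · rw [← c7, sub_sub_cancel]
    exact c5

end

theorem qi (hM : FB Mx) (Y : GMF (cubicForm Mx) m) (Y' : GMF (cubicForm Mx) n) (j : ℤ) :
    Nonempty (HQ (ZM Y Y' j) (BM Y Y' j) ≃ₗ[ℂ] HQ (U := Lam (Fin m → SA) →ₗ[A3] Lam (Fin n → SA))
      (ZC ((xd hM Y).lm hM) ((xd hM Y').lm hM) j) (BC ((xd hM Y).lm hM) ((xd hM Y').lm hM) j)) := by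
  let α : Matrix (Fin n) (Fin m) S6 →ₗ[ℂ] (Lam (Fin m → SA) →ₗ[A3] Lam (Fin n → SA)) :=
    { toFun := fun g => cw (lin g)
      map_add' := fun g g' => by rw [lin_add, cw_add]
      map_smul' := fun c g => by rw [lin_csmul]; rfl }
  have hα : ∀ g, α g = cw (lin g) := fun _ => rfl
  have hD : (xd hM Y).D = lin Y.d := rfl
  have hD' : (xd hM Y').D = lin Y'.d := rfl
  refine hq_equiv α (fun g hg => qi_Z hM _ _ (dk_lin hg.1) (lin_smul g) ?_)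
    (fun g hg => ⟨fun h1 => ?_, ?_⟩) fun f hf => ?_
  · rw [hD, hD', ← lin_mul, ← lin_mul, hg.2]
  · obtain ⟨h, c2, c3, c4⟩ := qi_B' hM (xd hM Y) (xd hM Y') (dv_GS _) h1
    obtain ⟨h', d1, rfl⟩ := exists_mat c2 c3
    refine ⟨h', d1, lin_inj ?_⟩
    rw [c4, lin_add, lin_mul, lin_mul, hD, hD']
  · rintro ⟨h, h1, rfl⟩
    rw [hα, lin_add, lin_mul, lin_mul]
    exact qi_B hM (xd hM Y) (xd hM Y') (dk_lin h1) (lin_smul h)
  · obtain ⟨h, c2, c3, c4, c5⟩ := qi_S hM (xd hM Y) (xd hM Y') (dv_GS _) hf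
    obtain ⟨g, d1, rfl⟩ := exists_mat c2 c3
    refine ⟨g, ⟨d1, lin_inj ?_⟩, c5⟩
    rw [lin_mul, lin_mul]
    exact c4

theorem vg_iff (p : Fin n → ℤ) (a : ℤ) (v : Fin n → A3) :
    v ∈ VG (bs ℂ n) (gs p) a ↔ v ∈ frG p a := by
  refine ⟨fun h i => hg_iff.2 fun α hα => ?_, fun h t ht => ?_⟩
  · by_contra h1
    exact hα (h ⟨i, α⟩ fun h2 => h1 (by rw [← h2, gs]; ring))
  · by_contra h1
    have h2 := hg_iff.1 (h t.1) t.2 h1
    exact ht (by rw [gs, h2]; ring)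

theorem hg_x0 {a : ℤ} {f : S6} (hf : Hg a f) : Hg a (x0 f) :=
  hg_aeval _ (fun i => by
    fin_cases i
    exacts [hg_zero _, hg_zero _, hg_zero _, hg_X _, hg_X _, hg_X _]) hf

theorem model (hM : FB Mx) (Y : GMF (cubicForm Mx) n) (hY : ExL Y) :
    ∃ F : FM Mx, HE F.N ((xd hM Y).lm hM) := by
  obtain ⟨a₀, h⟩ := hY
  refine exists_model hM (grB_GS Y.p) _ (bs ℂ n)
    (D := (Y.d.map x0).mulVecLin.restrictScalars ℂ) (fun a v hv => ?_)
    (LinearMap.ext fun v => ?_) (gs_finite Y.p a₀) (fun a ha v hv h0 => ?_) fun t t' => ?_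
  · rw [vg_iff] at hv ⊢
    exact fun i => hg_sum _ fun l _ => hg_mul (hg_x0 (Y.deg i l)) (hv l) (by ring)
  · change (Y.d.map x0).mulVec ((Y.d.map x0).mulVec v) = 0
    rw [Matrix.mulVec_mulVec, ← Matrix.map_mul, Y.sq]
    funext i
    simp [Matrix.mulVec, dotProduct, Matrix.one_apply, apply_ite x0, x0_cubic hM]
  · obtain ⟨u, -, hu⟩ := h a ha v ((vg_iff _ _ _).1 hv) h0
    exact ⟨u, hu⟩
  · rw [lm_in0_zero, bs_repr, bs_repr, bs_apply, bs_apply]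
    change constantCoeff (coeff t'.2 (lin Y.d _ t'.1)) = coeff t'.2 ((Y.d.map x0).mulVec _ t'.1)
    rw [lin_single, ← coeff_map, map_mul, cc_th, map_monomial, map_one, Matrix.mulVec_single]
    simp

/-- **T2** -/
theorem t2 : T2 := by
  intro Mx hM
  choose F hF using fun {n : ℕ} (Y : GMF (cubicForm Mx) n) (hY : ExL Y) => model (fb_of hM) Y hY
  refine ⟨F, fun Y Y' hY hY' j => ?_⟩
  obtain ⟨e⟩ := qi (fb_of hM) Y Y' j
  obtain ⟨e'⟩ := hq_he (hF Y hY) (hF Y' hY') j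
  exact ⟨e.trans e'⟩

end Vale.Agent.P287Z.T
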