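import Vale.Agent.P287Z.T.Min2

/-!
# Finite models (P287, block T2)
-/

set_option linter.unusedSectionVars false
set_option linter.unusedSimpArgs false
set_option linter.unusedVariables false

open MvPolynomial Module

namespace Vale.Agent.P287Z.T

open O.V

section

variable {M M' M'' σ σ' σ'' V V' V'' : Type} [AddCommGroup M] [Module A3 M] [AddCommGroup M']
  [Module A3 M'] [AddCommGroup M''] [Module A3 M''] [Module ℂ M] [IsScalarTower ℂ A3 M]
  [Module ℂ M'] [IsScalarTower ℂ A3 M'] [Module ℂ M''] [IsScalarTower ℂ A3 M'']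
  [AddCommGroup V] [Module ℂ V] [AddCommGroup V'] [Module ℂ V'] [AddCommGroup V''] [Module ℂ V'']
  {G : ℤ → Submodule ℂ M} {G' : ℤ → Submodule ℂ M'} {Mx : Matrix (Fin 4) (Fin 4) A3}

/-- the grading is defined by the basis `b` with degrees `g` -/
def GrB (G : ℤ → Submodule ℂ M) (b : Basis σ A3 M) (g : σ → ℤ) : Prop :=
  ∀ a v, v ∈ G a ↔ ∀ t, Hg (a - g t) (b.repr v t)

theorem map_eq_sum (b : Basis σ A3 M) (f : M →ₗ[A3] M') (x : M) :
    f x = ∑ t ∈ (b.repr x).support, b.repr x t • f (b t) := by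
  conv_lhs => rw [← b.linearCombination_repr x, Finsupp.linearCombination_apply, Finsupp.sum,
    map_sum]
  simp only [map_smul]

variable {b : Basis σ A3 M} {g : σ → ℤ} {b' : Basis σ' A3 M'} {g' : σ' → ℤ}

theorem GrB.isGr (h : GrB G b g) : IsGr G := fun d a r hr v hv => (h _ _).2 fun t => by
  rw [map_smul, Finsupp.smul_apply, smul_eq_mul]
  exact hg_mul hr ((h _ _).1 hv t) (by ring)

theorem dk_of_basis (h : GrB G b g) (hG' : IsGr G') {k : ℤ} {f : M →ₗ[A3] M'}
    (hf : ∀ t, f (b t) ∈ G' (g t + k)) : f ∈ Dk G G' k := fun a v hv => by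
  rw [map_eq_sum b f v]
  exact Submodule.sum_mem _ fun t _ => mem_of_eq (hG' _ _ _ ((h _ _).1 hv t) _ (hf t)) (by ring)

theorem nilp (h : GrB G b g) {k₀ : ℤ} (hb : ∀ t, k₀ ≤ g t) {ν : Module.End A3 (Lam M)}
    (hν : ν ∈ PP Mx 1 G G 0) (h0 : ∀ t t', constantCoeff (b.repr (ν (in0 M (b t)) 0) t') = 0)
    (v : Lam M) : ∃ n : ℕ, (ν ^ n) v = 0 := by
  have up : ∀ v n n', n ≤ n' → (ν ^ n) v = 0 → (ν ^ n') v = 0 := by
    intro m n n' h h0
    obtain ⟨c, rfl⟩ := Nat.exists_eq_add_of_le h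
    rw [add_comm, pow_add, Module.End.mul_apply, h0, map_zero]
  let K : Submodule A3 (Lam M) :=
    { carrier := {v | ∃ n : ℕ, (ν ^ n) v = 0}
      zero_mem' := ⟨0, map_zero _⟩
      add_mem' := by
        rintro u v ⟨n, hn⟩ ⟨n', hn'⟩
        exact ⟨max n n', by
          rw [map_add, up _ _ _ (le_max_left _ _) hn, up _ _ _ (le_max_right _ _) hn', add_zero]⟩
      smul_mem' := by
        rintro r v ⟨n, hn⟩
        exact ⟨n, by rw [map_smul, hn, smul_zero]⟩ }
  have hK : ∀ i, ∀ v ∈ K, LL M Mx i v ∈ K := by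
    rintro i v ⟨n, hn⟩
    have c : Commute ν (LL M Mx i) := (hν.2 i).trans (one_smul _ _)
    refine ⟨n, ?_⟩
    rw [← Module.End.mul_apply, (c.pow_left n).eq, Module.End.mul_apply, hn, map_zero]
  have hbt : ∀ t, b t ∈ G (g t) := fun t => (h _ _).2 fun t' => by
    classical
    rw [b.repr_self, Finsupp.single_apply]
    split_ifs with h1
    · rw [h1, sub_self]
      exact hg_C 1
    · exact hg_zero _
  have key : ∀ n : ℕ, ∀ t, g t < k₀ + n → in0 M (b t) ∈ K := by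
    intro n
    induction n with
    | zero =>
      intro t ht
      have := hb t
      omega
    | succ n ih =>
      intro t ht
      have hw := hν.1 _ _ (dk_in0 _ _ (hbt t))
      have h1 : ν (in0 M (b t)) ∈ K := by
        rw [← Finset.univ_sum_single (ν (in0 M (b t)))]
        refine K.sum_mem fun I _ => ?_
        have h2 := map_eq_sum b (LinearMap.single A3 (fun _ : Fin 8 => M) I) (ν (in0 M (b t)) I)
        rw [LinearMap.coe_single] at h2
        rw [h2]
        refine K.sum_mem fun t' ht' => K.smul_mem _ (single_mem Mx K hK _ (ih t' ?_) I)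
        by_contra h3
        have h4 := (h _ _).1 (hw I) t'
        have h5 := lv_nonneg I
        have h6 := Finsupp.mem_support_iff.1 ht'
        have h7 : ¬ g t + 0 + 0 - lv I - g t' < 0 := fun h8 => h6 (hg_lt h4 h8)
        have h8 : I = 0 := lv_zero I (by push_cast at ht; omega)
        subst h8
        have h9 : g t + 0 + 0 - lv 0 - g t' = 0 := by push_cast at ht; omega
        rw [h9] at h4
        exact h6 (by rw [hg_zero_eq h4, h0, map_zero])
      obtain ⟨m, hm⟩ := h1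
      exact ⟨m + 1, by rw [pow_succ, Module.End.mul_apply, hm]⟩
  refine gen_top Mx K (fun x => ?_) hK v
  rw [map_eq_sum b (in0 M) x]
  exact K.sum_mem fun t _ => K.smul_mem _ (key (g t - k₀ + 1).toNat t (by omega))

/-- the generators -/
noncomputable def lft (e : Basis σ ℂ V) (b : Basis σ A3 M) : V →ₗ[ℂ] M := e.constr ℂ b

theorem repr_lft (e : Basis σ ℂ V) (b : Basis σ A3 M) (v : V) (t : σ) :
    b.repr (lft e b v) t = C (e.repr v t) := by
  classical
  have h : (b.coord t).restrictScalars ℂ ∘ₗ lft e b = Algebra.linearMap ℂ A3 ∘ₗ e.coord t := by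
    refine e.ext fun t' => ?_
    by_cases h : t' = t <;> simp [lft, h]
  exact LinearMap.congr_fun h v

theorem lft_mem (h : GrB G b g) {e : Basis σ ℂ V} {a : ℤ} {v : V} (hv : v ∈ VG e g a) :
    lft e b v ∈ G a := (h _ _).2 fun t => by
  rw [repr_lft]
  by_cases h1 : g t = a
  · rw [h1, sub_self]
    exact hg_C _
  · rw [hv t h1, map_zero]
    exact hg_zero _

/-- extension of scalars of a linear map -/
noncomputable def xt (e : Basis σ ℂ V) (b : Basis σ A3 M) (e' : Basis σ' ℂ V')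
    (b' : Basis σ' A3 M') : (V →ₗ[ℂ] V') →+ (M →ₗ[A3] M') where
  toFun φ := b.constr ℕ fun t => lft e' b' (φ (e t))
  map_zero' := b.ext fun t => by simp
  map_add' φ ψ := b.ext fun t => by simp

variable {e : Basis σ ℂ V} {e' : Basis σ' ℂ V'} {e'' : Basis σ'' ℂ V''} {b'' : Basis σ'' A3 M''}

theorem xt_basis (φ : V →ₗ[ℂ] V') (t : σ) : xt e b e' b' φ (b t) = lft e' b' (φ (e t)) :=
  b.constr_basis _ _ _

theorem xt_lft (φ : V →ₗ[ℂ] V') (v : V) : xt e b e' b' φ (lft e b v) = lft e' b' (φ v) := by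
  have h : (xt e b e' b' φ).restrictScalars ℂ ∘ₗ lft e b = lft e' b' ∘ₗ φ := by
    refine e.ext fun t => ?_
    simp [lft, xt_basis]
  exact LinearMap.congr_fun h v

theorem xt_comp (φ : V →ₗ[ℂ] V') (ψ : V' →ₗ[ℂ] V'') :
    xt e' b' e'' b'' ψ ∘ₗ xt e b e' b' φ = xt e b e'' b'' (ψ ∘ₗ φ) :=
  b.ext fun t => by rw [LinearMap.comp_apply, xt_basis, xt_lft, xt_basis, LinearMap.comp_apply]

theorem xt_mul (φ ψ : Module.End ℂ V) :
    (xt e b e b ψ * xt e b e b φ : Module.End A3 M) = xt e b e b (ψ * φ) := xt_comp φ ψ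

theorem xt_id : xt e b e b LinearMap.id = LinearMap.id := b.ext fun t => by simp [xt_basis, lft]

theorem dk_xt (h : GrB G b g) (h' : GrB G' b' g') {k : ℤ} {φ : V →ₗ[ℂ] V'}
    (hφ : DV e g e' g' k φ) : xt e b e' b' φ ∈ Dk G G' k :=
  dk_of_basis h h'.isGr fun t => by
    rw [xt_basis]
    exact lft_mem h' (hφ _ _ (basis_mem t))

theorem grB_fr {r : ℕ} (g : Fin r → ℤ) : GrB (frG g) (Pi.basisFun A3 (Fin r)) g := fun a v => by
  simp only [Pi.basisFun_repr]
  rfl

/-- **finite models** -/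
theorem exists_model (hM : FB Mx) (h : GrB G b g) (N : LM Mx G) (e : Basis σ ℂ V)
    {D : Module.End ℂ V} (hD : DV e g e g 3 D) (hDD : D * D = 0) {a₀ : ℤ}
    (hf : {t | g t < a₀}.Finite) (hx : ∀ a ≥ a₀, ∀ v ∈ VG e g a, D v = 0 → ∃ u, D u = v)
    (hred : ∀ t t', constantCoeff (b.repr (N.E (in0 M (b t)) 0) t') = e.repr (D (e t)) t') :
    ∃ F : FM Mx, HE F.N N := by
  obtain ⟨η, dη, h1, h2, r, g', ι, ϖ, dι, dϖ, h3, h4⟩ := min1 hD hDD hf hx
  obtain ⟨k₁, hk₁⟩ := (hf.image g).bddBelow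
  have hb : ∀ t, min k₁ a₀ ≤ g t := fun t => by
    by_cases h5 : g t < a₀
    · exact (min_le_left _ _).trans (hk₁ ⟨t, h5, rfl⟩)
    · exact (min_le_right _ _).trans (not_lt.1 h5)
  have hred' : ∀ v t', constantCoeff (b.repr (N.E (in0 M (lft e b v)) 0) t') =
      e.repr (D v) t' := by
    intro v t'
    have h5 : lcoeff ℂ 0 ∘ₗ (b.coord t' ∘ₗ LinearMap.proj 0 ∘ₗ N.E ∘ₗ in0 M).restrictScalars ℂ ∘ₗ
        lft e b = e.coord t' ∘ₗ D := by
      refine e.ext fun t => ?_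
      have h6 : lft e b (e t) = b t := e.constr_basis _ _ _
      rw [LinearMap.comp_apply, LinearMap.comp_apply, h6]
      exact hred t t'
    exact LinearMap.congr_fun h5 v
  obtain ⟨D', hD'⟩ : ∃ D' : Module.End A3 M, D' = xt e b e b D := ⟨_, rfl⟩
  obtain ⟨η', hη'⟩ : ∃ η' : Module.End A3 M, η' = xt e b e b η := ⟨_, rfl⟩
  have dD' : D' ∈ Dk G G 3 := hD' ▸ dk_xt h h hD
  have dη' : η' ∈ Dk G G (-3) := hη' ▸ dk_xt h h dη
  have r0 : D' * D' = 0 := by rw [hD', xt_mul, hDD, map_zero]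
  have r1 : η' * η' = 0 := by rw [hη', xt_mul, h1, map_zero]
  have r2 : η' * D' * η' = η' := by rw [hη', hD', xt_mul, xt_mul, h2]
  have e1 : ∀ x, η' (η' x) = 0 := LinearMap.congr_fun r1
  have e2 : ∀ x, η' (D' (η' x)) = η' x := LinearMap.congr_fun r2
  obtain ⟨ν, hν⟩ : ∃ ν : Module.End A3 (Lam M),
    ν = exs Mx 1 (in0 M ∘ₗ D' ∘ₗ η' - N.E ∘ₗ in0 M ∘ₗ η') := ⟨_, rfl⟩
  have pν : ν ∈ PP Mx 1 G G 0 := hν ▸ pp_exs hM h.isGr rfl (sub_mem
    (dk_comp dk_in0 (dk_comp dD' dη' rfl) (by norm_num))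
    (dk_comp N.deg (dk_comp dk_in0 dη' rfl) (by norm_num)))
  have eν : ∀ x, ν (in0 M x) = in0 M (D' (η' x)) - N.E (in0 M (η' x)) := fun x => by
    rw [hν, ← LinearMap.comp_apply, exs_in0]
    rfl
  obtain ⟨T', pT', t1, t2⟩ := exists_inv pν (nilp h hb pν fun t t' => by
    rw [eν, Pi.sub_apply, map_sub, Finsupp.sub_apply, map_sub, hη', xt_basis, hred', hD', xt_lft,
      in0_apply, Pi.single_eq_same, repr_lft, constantCoeff_C, sub_self])
  obtain ⟨N₁, hN₁, he₁⟩ := he_conj N (sub_mem pp_id pν) pT' t1 t2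
  have t3 : ∀ v, T' (v - ν v) = v := LinearMap.congr_fun t1
  obtain ⟨N₂, he₂⟩ := he_core (G' := frG g') N₁ dD' dη' (dk_xt (grB_fr g') h dι)
    (dk_xt h (grB_fr g') dϖ) r0 r1 r2 (by rw [xt_comp, h3, xt_id])
    (by
      rw [xt_comp, h4, map_sub, map_add, ← xt_mul, ← xt_mul, ← hD', ← hη']
      exact congrArg (· - _) xt_id)
    (fun x => by
      rw [hN₁, ← t3 (in0 M (D' (η' x)))]
      simp only [LinearMap.comp_apply, LinearMap.sub_apply, LinearMap.id_apply, eν, e1, e2,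
        map_zero, sub_zero, sub_self, sub_sub_cancel])
  exact ⟨⟨r, g', N₂⟩, he₂.trans he₁⟩

end

end Vale.Agent.P287Z.T
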