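import Vale.Agent.P287Z.T.Qi
import Vale.Agent.P287Z.T.Min3

/-!
# Matrix factorizations over `A[y]` (P287, block T2)
-/

set_option linter.unusedSectionVars false
set_option linter.unusedSimpArgs false
set_option linter.unusedVariables false

open MvPolynomial Module

namespace Vale.Agent.P287Z.T

open O.V

/-- the polynomial ring in six variables -/
abbrev S6 : Type := MvPolynomial (Fin 6) ℂ

/-- `ℂ[x,y] = ℂ[x][y]` -/
noncomputable def th : S6 ≃ₐ[ℂ] SA :=
  AlgEquiv.ofAlgHom (aeval ![C (X 0), C (X 1), C (X 2), X 0, X 1, X 2])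
    (aevalTower (aeval ![X 0, X 1, X 2]) ![X 3, X 4, X 5])
    (by
      refine algHom_ext' ?_ fun i => ?_
      · refine algHom_ext fun i => ?_
        fin_cases i <;> simp
      · fin_cases i <;> simp)
    (by
      refine algHom_ext fun i => ?_
      fin_cases i <;> simp)

theorem th_apply (f : S6) : th f = aeval ![C (X 0), C (X 1), C (X 2), X 0, X 1, X 2] f := rfl

theorem th_symm (f : SA) :
    th.symm f = aevalTower (aeval ![X 0, X 1, X 2]) ![X 3, X 4, X 5] f := rfl

theorem mono_deg {σ B : Type} [CommRing B] [Algebra ℂ B] (H : ℤ → Submodule ℂ B) (h1 : 1 ∈ H 0)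
    (hm : ∀ a b x y, x ∈ H a → y ∈ H b → x * y ∈ H (a + b)) (z : σ → B) (hz : ∀ i, z i ∈ H 2)
    (d : σ →₀ ℕ) : (d.prod fun i k => z i ^ k) ∈ H (2 * (d.degree : ℤ)) := by
  induction d using Finsupp.induction_linear with
  | zero => simpa using h1
  | add d d' h h' =>
    rw [Finsupp.prod_add_index' (fun _ => pow_zero _) (fun _ _ _ => pow_add _ _ _), map_add,
      Nat.cast_add, mul_add]
    exact hm _ _ _ _ h h'
  | single i n =>
    rw [Finsupp.prod_single_index (h := fun i k => z i ^ k) (pow_zero _), Finsupp.degree_single]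
    induction n with
    | zero => simpa using h1
    | succ n ih =>
      rw [pow_succ, Nat.cast_succ, mul_add, mul_one]
      exact hm _ _ _ _ ih (hz i)

theorem alg_deg {σ B : Type} [CommRing B] [Algebra ℂ B] (H : ℤ → Submodule ℂ B) (h1 : 1 ∈ H 0)
    (hm : ∀ a b x y, x ∈ H a → y ∈ H b → x * y ∈ H (a + b)) (z : σ → B) (hz : ∀ i, z i ∈ H 2)
    {a : ℤ} {f : MvPolynomial σ ℂ} (hf : Hg a f) : aeval z f ∈ H a := by
  rw [f.as_sum, map_sum]
  refine Submodule.sum_mem _ fun d hd => ?_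
  rw [aeval_monomial, ← Algebra.smul_def, ← hg_iff.1 hf d (mem_support_iff.1 hd)]
  exact Submodule.smul_mem _ _ (mono_deg H h1 hm z hz d)

theorem hg_aeval {σ τ : Type} (z : σ → MvPolynomial τ ℂ) (hz : ∀ i, Hg 2 (z i)) {a : ℤ}
    {f : MvPolynomial σ ℂ} (hf : Hg a f) : Hg a (aeval z f) :=
  alg_deg (weightedHomogeneousSubmodule ℂ fun _ => (2 : ℤ)) (hg_C 1)
    (fun _ _ _ _ h h' => hg_mul h h' rfl) z hz hf

/-- the grading of `A[y]` -/
def HS (a : ℤ) : Submodule ℂ SA where
  carrier := {f | ∀ α, Hg (a - 2 * (α.degree : ℤ)) (coeff α f)}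
  zero_mem' := fun _ => hg_zero _
  add_mem' := fun h h' α => by
    rw [coeff_add]
    exact hg_add (h α) (h' α)
  smul_mem' := fun c _ h α => by
    rw [coeff_smul]
    exact hg_smul c (h α)

theorem hs_monomial {a : ℤ} (α : Fin 3 →₀ ℕ) {r : A3} (hr : Hg (a - 2 * (α.degree : ℤ)) r) :
    monomial α r ∈ HS a := fun β => by
  rw [coeff_monomial]
  split_ifs with h
  · exact h ▸ hr
  · exact hg_zero _

theorem hs_C {a : ℤ} {r : A3} (hr : Hg a r) : C r ∈ HS a := hs_monomial 0 (by simpa using hr)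

theorem hs_one : (1 : SA) ∈ HS 0 := hs_C (hg_C 1)

theorem hs_X (i : Fin 3) : (X i : SA) ∈ HS 2 :=
  hs_monomial (Finsupp.single i 1) (by simpa using hg_C 1)

theorem hs_mul {a b c : ℤ} {x y : SA} (hx : x ∈ HS a) (hy : y ∈ HS b) (h : c = a + b) :
    x * y ∈ HS c := fun α => by
  rw [coeff_mul]
  refine hg_sum _ fun p hp => hg_mul (hx p.1) (hy p.2) ?_
  rw [← Finset.mem_antidiagonal.1 hp, map_add, h]
  push_cast
  ring

theorem hs_th {a : ℤ} {f : S6} (hf : Hg a f) : th f ∈ HS a :=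
  alg_deg HS hs_one (fun _ _ _ _ h h' => hs_mul h h' rfl) _ (fun i => by
    fin_cases i
    exacts [hs_C (hg_X 0), hs_C (hg_X 1), hs_C (hg_X 2), hs_X 0, hs_X 1, hs_X 2]) hf

theorem hg_th_symm {a : ℤ} {f : SA} (hf : f ∈ HS a) : Hg a (th.symm f) := by
  rw [f.as_sum, map_sum]
  refine hg_sum _ fun α _ => ?_
  rw [th_symm, aevalTower, AlgHom.coe_mk, eval₂Hom_monomial]
  refine hg_mul (hg_aeval _ (fun i => ?_) (hf α)) (mono_deg
    (weightedHomogeneousSubmodule ℂ fun _ => (2 : ℤ)) (hg_C 1)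
    (fun _ _ _ _ h h' => hg_mul h h' rfl) _ (fun i => ?_) α) (by ring)
  all_goals fin_cases i <;> exact hg_X _

variable {m n k : ℕ}

/-- the grading of a free `A[y]`-module -/
def GS (p : Fin n → ℤ) (a : ℤ) : Submodule ℂ (Fin n → SA) where
  carrier := {v | ∀ i, v i ∈ HS (a - p i)}
  zero_mem' := fun _ => zero_mem _
  add_mem' := fun h h' i => add_mem (h i) (h' i)
  smul_mem' := fun c _ h i => Submodule.smul_mem _ c (h i)

/-- the monomial basis -/
noncomputable def bs (R : Type) [CommRing R] (n : ℕ) :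
    Basis (Σ _ : Fin n, Fin 3 →₀ ℕ) R (Fin n → MvPolynomial (Fin 3) R) :=
  Pi.basis fun _ => basisMonomials (Fin 3) R

theorem bs_repr {R : Type} [CommRing R] (v : Fin n → MvPolynomial (Fin 3) R)
    (t : Σ _ : Fin n, Fin 3 →₀ ℕ) : (bs R n).repr v t = coeff t.2 (v t.1) := rfl

theorem bs_apply {R : Type} [CommRing R] (t : Σ _ : Fin n, Fin 3 →₀ ℕ) :
    bs R n t = Pi.single t.1 (monomial t.2 1) := by
  rw [bs, Pi.basis_apply, coe_basisMonomials]

/-- the degrees of the monomial basis -/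
noncomputable def gs (p : Fin n → ℤ) (t : Σ _ : Fin n, Fin 3 →₀ ℕ) : ℤ := p t.1 + 2 * (t.2.degree : ℤ)

theorem grB_GS (p : Fin n → ℤ) : GrB (GS p) (bs A3 n) (gs p) := fun a v =>
  ⟨fun h t => by
    rw [bs_repr, gs, ← sub_sub]
    exact h t.1 t.2, fun h i α => by
    have h1 := h ⟨i, α⟩
    rwa [bs_repr, gs, ← sub_sub] at h1⟩

theorem gs_finite (p : Fin n → ℤ) (a₀ : ℤ) : {t | gs p t < a₀}.Finite := by
  refine (Set.finite_iUnion fun i : Fin n => (Finsupp.finite_of_degree_le (σ := Fin 3)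
    (a₀ - p i).toNat).image fun α => (⟨i, α⟩ : Σ _ : Fin n, Fin 3 →₀ ℕ)).subset ?_
  rintro ⟨i, α⟩ h
  refine Set.mem_iUnion.2 ⟨i, α, ?_, rfl⟩
  simp only [gs, Set.mem_ofPred_eq] at h ⊢
  omega

theorem hy_GS (p : Fin n → ℤ) (i : Fin 3) : sm (Fin n → SA) (X i) ∈ Dk (GS p) (GS p) 2 :=
  fun a v hv l => hs_mul (hs_X i) (hv l) (by ring)

theorem dv_GS (p : Fin n → ℤ) : Dv (GS p) := by
  intro i
  let δ : SA →ₗ[A3] SA :=
    { toFun := fun f => f.divMonomial (Finsupp.single i 1)
      map_add' := fun f g => add_divMonomial _ _ _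
      map_smul' := fun r f => by
        ext α
        simp only [coeff_divMonomial, coeff_smul, RingHom.id_apply] }
  have hδ : ∀ f α, coeff α (δ f) = coeff (Finsupp.single i 1 + α) f := fun f α =>
    coeff_divMonomial _ _ _
  let Δ : Module.End A3 (Fin n → SA) := δ.compLeft (Fin n)
  have hΔ : ∀ v l, Δ v l = δ (v l) := fun _ _ => rfl
  have hp : ∀ (N : ℕ) v l α, coeff α ((Δ ^ N) v l) = coeff (Finsupp.single i N + α) (v l) := by
    intro N
    induction N with
    | zero => intro v l α; simp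
    | succ N ih =>
      intro v l α
      rw [pow_succ', Module.End.mul_apply, hΔ, hδ, ih, Finsupp.single_add, add_assoc]
  refine ⟨Δ, LinearMap.ext fun v => funext fun l => X_mul_divMonomial i (v l), fun v => ?_,
    fun a v hv l α => ?_, fun j hj => LinearMap.ext fun v => funext fun l => ?_⟩
  · refine ⟨Finset.univ.sup (fun l => (v l).totalDegree) + 1, funext fun l => ?_⟩
    ext1 α
    rw [hp, Pi.zero_apply, coeff_zero]
    by_contra h
    have h1 := le_totalDegree (mem_support_iff.2 h)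
    have h2 : (v l).totalDegree ≤ Finset.univ.sup (fun l => (v l).totalDegree) :=
      Finset.le_sup (f := fun l => (v l).totalDegree) (Finset.mem_univ l)
    rw [Finsupp.sum_add_index' (fun _ => rfl) (fun _ _ _ => rfl),
      Finsupp.sum_single_index rfl] at h1
    omega
  · rw [hΔ, hδ]
    have h1 := hv l (Finsupp.single i 1 + α)
    rw [map_add, Finsupp.degree_single] at h1
    push_cast at h1
    rwa [show a + -2 - p l - 2 * (α.degree : ℤ) = a - p l - 2 * (1 + (α.degree : ℤ)) by ring]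
  · change X j * δ (v l) = δ (X j * v l)
    ext1 α
    rw [hδ, coeff_X_mul', coeff_X_mul', hδ]
    have h1 : j ∈ (Finsupp.single i 1 + α).support ↔ j ∈ α.support := by
      simp [hj]
    by_cases h2 : j ∈ α.support
    · rw [if_pos h2, if_pos (h1.2 h2), add_tsub_assoc_of_le]
      exact Finsupp.single_le_iff.2 (Nat.one_le_iff_ne_zero.2 (Finsupp.mem_support_iff.1 h2))
    · rw [if_neg h2, if_neg (mt h1.1 h2)]

/-- the map defined by a matrix -/
noncomputable def lin (g : Matrix (Fin n) (Fin m) S6) : (Fin m → SA) →ₗ[A3] (Fin n → SA) :=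
  (g.map th).mulVecLin.restrictScalars A3

theorem lin_apply (g : Matrix (Fin n) (Fin m) S6) (v : Fin m → SA) :
    lin g v = (g.map th).mulVec v := rfl

theorem lin_smul (g : Matrix (Fin n) (Fin m) S6) (r : SA) (v : Fin m → SA) :
    lin g (r • v) = r • lin g v := by
  rw [lin_apply, lin_apply, Matrix.mulVec_smul]

theorem lin_mul (g : Matrix (Fin k) (Fin n) S6) (g' : Matrix (Fin n) (Fin m) S6) :
    lin (g * g') = lin g ∘ₗ lin g' := LinearMap.ext fun v => by
  rw [LinearMap.comp_apply, lin_apply, lin_apply, lin_apply, Matrix.map_mul, Matrix.mulVec_mulVec]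

theorem lin_add (g g' : Matrix (Fin n) (Fin m) S6) : lin (g + g') = lin g + lin g' :=
  LinearMap.ext fun v => by
    rw [LinearMap.add_apply, lin_apply, lin_apply, lin_apply, Matrix.map_add _ (map_add th),
      Matrix.add_mulVec]

theorem lin_csmul (c : ℂ) (g : Matrix (Fin n) (Fin m) S6) : lin (c • g) = c • lin g :=
  LinearMap.ext fun v => by
    rw [LinearMap.smul_apply, lin_apply, lin_apply, Matrix.map_smul _ c (map_smul th c),
      Matrix.smul_mulVec]

theorem lin_single (g : Matrix (Fin n) (Fin m) S6) (l : Fin m) (x : SA) (i : Fin n) :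
    lin g (Pi.single l x) i = th (g i l) * x := by
  rw [lin_apply, Matrix.mulVec_single]
  simp

theorem lin_inj {g g' : Matrix (Fin n) (Fin m) S6} (h : lin g = lin g') : g = g' := by
  ext1 i l
  apply th.injective
  rw [← mul_one (th (g i l)), ← lin_single, h, lin_single, mul_one]

theorem dk_lin {p : Fin m → ℤ} {p' : Fin n → ℤ} {j : ℤ} {g : Matrix (Fin n) (Fin m) S6}
    (hg : ∀ i l, Hg (j + p l - p' i) (g i l)) : lin g ∈ Dk (GS p) (GS p') j := fun a v hv i =>
  Submodule.sum_mem _ fun l _ => hs_mul (hs_th (hg i l)) (hv l) (by ring)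

theorem exists_mat {p : Fin m → ℤ} {p' : Fin n → ℤ} {j : ℤ} {h : (Fin m → SA) →ₗ[A3] (Fin n → SA)}
    (hd : h ∈ Dk (GS p) (GS p') j) (hl : ∀ (r : SA) v, h (r • v) = r • h v) :
    ∃ g : Matrix (Fin n) (Fin m) S6, (∀ i l, Hg (j + p l - p' i) (g i l)) ∧ lin g = h := by
  refine ⟨Matrix.of fun i l => th.symm (h (Pi.single l 1) i), fun i l => hg_th_symm ?_,
    LinearMap.ext fun v => ?_⟩
  · have h1 : (Pi.single l 1 : Fin m → SA) ∈ GS p (p l) := fun l' => by
      by_cases h2 : l' = l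
      · subst h2
        rw [Pi.single_eq_same, sub_self]
        exact hs_one
      · rw [Pi.single_eq_of_ne h2]
        exact zero_mem _
    rw [add_comm j]
    exact hd _ _ h1 i
  · rw [← Finset.univ_sum_single v, map_sum, map_sum]
    refine Finset.sum_congr rfl fun l _ => funext fun i => ?_
    have h1 : (Pi.single l (v l) : Fin m → SA) = v l • (Pi.single l 1 : Fin m → SA) := by
      rw [← Pi.single_smul', smul_eq_mul, mul_one]
    rw [lin_single, Matrix.of_apply, AlgEquiv.apply_symm_apply, h1, hl, Pi.smul_apply, smul_eq_mul,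
      mul_comm]

end Vale.Agent.P287Z.T
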