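import Vale.Agent.P287Z.O.Sta2

/-!
# Subquotients `Z / B` and their comparison (P287, block T)
-/

open MvPolynomial

namespace Vale.Agent.P287Z.T

section

variable {U U' : Type*} [AddCommGroup U] [Module ℂ U] [AddCommGroup U'] [Module ℂ U']

/-- the subquotient `Z / (B ∩ Z)` -/
abbrev HQ (Z B : Submodule ℂ U) : Type _ := Z ⧸ B.submoduleOf Z

theorem hq_equiv' {Z B : Submodule ℂ U} (α : Z →ₗ[ℂ] U') (hs : Function.Surjective α)
    (hk : ∀ z : Z, α z = 0 ↔ (z : U) ∈ B) : Nonempty (HQ Z B ≃ₗ[ℂ] U') := by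
  have h1 : B.submoduleOf Z = LinearMap.ker α := by
    ext z
    rw [LinearMap.mem_ker, hk]
    rfl
  exact ⟨(Submodule.quotEquivOfEq _ _ h1).trans (α.quotKerEquivOfSurjective hs)⟩

/-- a map which is bijective on subquotients -/
theorem hq_equiv {Z B : Submodule ℂ U} {Z' B' : Submodule ℂ U'} (α : U →ₗ[ℂ] U')
    (hZ : ∀ z ∈ Z, α z ∈ Z') (hB : ∀ z ∈ Z, α z ∈ B' ↔ z ∈ B)
    (hs : ∀ z' ∈ Z', ∃ z ∈ Z, z' - α z ∈ B') : Nonempty (HQ Z B ≃ₗ[ℂ] HQ Z' B') := by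
  refine hq_equiv' ((B'.submoduleOf Z').mkQ ∘ₗ α.restrict hZ) ?_ ?_
  · intro x
    obtain ⟨⟨z', hz'⟩, rfl⟩ := Submodule.Quotient.mk_surjective _ x
    obtain ⟨z, hz, h⟩ := hs z' hz'
    refine ⟨⟨z, hz⟩, ?_⟩
    change Submodule.Quotient.mk _ = Submodule.Quotient.mk _
    rw [eq_comm, Submodule.Quotient.eq]
    exact h
  · intro z
    change Submodule.Quotient.mk _ = 0 ↔ _
    rw [Submodule.Quotient.mk_eq_zero, ← hB z.1 z.2]
    rfl

theorem hq_subsingleton {Z B : Submodule ℂ U} (h : Z ≤ B) : Subsingleton (HQ Z B) := by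
  rw [Submodule.Quotient.subsingleton_iff, eq_top_iff]
  exact fun z _ => h z.2

theorem finrank_hq {Z B : Submodule ℂ U} [Module.Finite ℂ Z] (h : B ≤ Z) :
    Module.finrank ℂ (HQ Z B) + Module.finrank ℂ B = Module.finrank ℂ Z := by
  rw [← Submodule.finrank_quotient_add_finrank (B.submoduleOf Z),
    (Submodule.submoduleOfEquivOfLe h).finrank_eq]

end

open O.V

variable {σ : Type} {W : MvPolynomial σ ℂ} {m n : ℕ}

theorem hg_add {a : ℤ} {f g : MvPolynomial σ ℂ} (hf : Hg a f) (hg : Hg a g) : Hg a (f + g) :=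
  IsWeightedHomogeneous.add hf hg

theorem hg_zero (a : ℤ) : Hg a (0 : MvPolynomial σ ℂ) := isWeightedHomogeneous_zero _ _ _

theorem hg_smul {a : ℤ} (c : ℂ) {f : MvPolynomial σ ℂ} (hf : Hg a f) : Hg a (c • f) :=
  Submodule.smul_mem (weightedHomogeneousSubmodule ℂ _ _) c hf

/-- closed maps of degree `j` between graded matrix factorizations -/
def ZM (X : GMF W m) (Y : GMF W n) (j : ℤ) :
    Submodule ℂ (Matrix (Fin n) (Fin m) (MvPolynomial σ ℂ)) where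
  carrier := {g | (∀ i l, Hg (j + X.p l - Y.p i) (g i l)) ∧ Y.d * g = g * X.d}
  zero_mem' := ⟨fun _ _ => hg_zero _, by rw [Matrix.mul_zero, Matrix.zero_mul]⟩
  add_mem' := fun h h' => ⟨fun i l => hg_add (h.1 i l) (h'.1 i l), by
    rw [Matrix.mul_add, Matrix.add_mul, h.2, h'.2]⟩
  smul_mem' := fun c _ h => ⟨fun i l => hg_smul c (h.1 i l), by
    rw [Matrix.mul_smul, Matrix.smul_mul, h.2]⟩

/-- null-homotopic maps of degree `j` -/
def BM (X : GMF W m) (Y : GMF W n) (j : ℤ) :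
    Submodule ℂ (Matrix (Fin n) (Fin m) (MvPolynomial σ ℂ)) where
  carrier := {g | ∃ h : Matrix (Fin n) (Fin m) (MvPolynomial σ ℂ),
    (∀ i l, Hg (j - 3 + X.p l - Y.p i) (h i l)) ∧ g = Y.d * h + h * X.d}
  zero_mem' := ⟨0, fun _ _ => hg_zero _, by rw [Matrix.mul_zero, Matrix.zero_mul, add_zero]⟩
  add_mem' := by
    rintro _ _ ⟨h, h1, rfl⟩ ⟨h', h1', rfl⟩
    refine ⟨h + h', fun i l => hg_add (h1 i l) (h1' i l), ?_⟩
    rw [Matrix.mul_add, Matrix.add_mul]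
    abel
  smul_mem' := by
    rintro c _ ⟨h, h1, rfl⟩
    refine ⟨c • h, fun i l => hg_smul c (h1 i l), ?_⟩
    rw [Matrix.mul_smul, Matrix.smul_mul, smul_add]

end Vale.Agent.P287Z.T
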