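import Vale.Agent.P287Z.T.Hq

/-!
# Graded modules over the Clifford algebra of the quadric fibration (P287, block T2): definitions

`A = ℂ[x₀,x₁,x₂]` with `deg x = 2`; `C' = ⟨e₀,e₁,e₂⟩`; the free `C'`-module on an `A`-module `M` is
`Λ M = Λ(e₀,e₁,e₂) ⊗ M`, with the subsets of `{0,1,2}` written as binary numbers.
-/

open MvPolynomial

namespace Vale.Agent.P287Z.T

open O.V

/-- the base ring -/
abbrev A3 : Type := MvPolynomial (Fin 3) ℂ

/-- the exterior degree -/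
def lv : Fin 8 → ℤ := ![0, 1, 1, 2, 1, 2, 2, 3]

/-- exterior multiplication by `eᵢ` -/
def wI : Fin 3 → Matrix (Fin 8) (Fin 8) ℤ :=
  ![!![0,0,0,0,0,0,0,0; 1,0,0,0,0,0,0,0; 0,0,0,0,0,0,0,0; 0,0,1,0,0,0,0,0;
      0,0,0,0,0,0,0,0; 0,0,0,0,1,0,0,0; 0,0,0,0,0,0,0,0; 0,0,0,0,0,0,1,0],
    !![0,0,0,0,0,0,0,0; 0,0,0,0,0,0,0,0; 1,0,0,0,0,0,0,0; 0,-1,0,0,0,0,0,0;
      0,0,0,0,0,0,0,0; 0,0,0,0,0,0,0,0; 0,0,0,0,1,0,0,0; 0,0,0,0,0,-1,0,0],
    !![0,0,0,0,0,0,0,0; 0,0,0,0,0,0,0,0; 0,0,0,0,0,0,0,0; 0,0,0,0,0,0,0,0;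
      1,0,0,0,0,0,0,0; 0,-1,0,0,0,0,0,0; 0,0,-1,0,0,0,0,0; 0,0,0,1,0,0,0,0]]

/-- contraction -/
def cI (i : Fin 3) : Matrix (Fin 8) (Fin 8) ℤ := (wI i).transpose

/-- the parity of the exterior degree -/
def eI : Matrix (Fin 8) (Fin 8) ℤ := Matrix.diagonal ![1, -1, -1, 1, -1, 1, 1, -1]

/-- `Λ ⊗ M` -/
abbrev Lam (M : Type) : Type := Fin 8 → M

section

variable (M : Type) [AddCommGroup M] [Module A3 M]

/-- integer matrices act on `Λ ⊗ M` -/
noncomputable def mat : Matrix (Fin 8) (Fin 8) ℤ →+* Module.End A3 (Lam M) where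
  toFun K :=
    { toFun := fun v I => ∑ J, K I J • v J
      map_add' := fun u v => by
        funext I
        simp only [Pi.add_apply, smul_add, Finset.sum_add_distrib]
      map_smul' := fun r v => by
        funext I
        simp only [Pi.smul_apply, RingHom.id_apply, Finset.smul_sum, smul_comm r] }
  map_one' := by
    refine LinearMap.ext fun v => funext fun I => ?_
    change ∑ J, (1 : Matrix (Fin 8) (Fin 8) ℤ) I J • v J = v I
    simp [Matrix.one_apply]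
  map_mul' K K' := by
    refine LinearMap.ext fun v => funext fun I => ?_
    change ∑ J, (K * K') I J • v J = ∑ J, K I J • ∑ J', K' J J' • v J'
    simp only [Matrix.mul_apply, Finset.sum_smul, Finset.smul_sum, mul_smul]
    exact Finset.sum_comm
  map_zero' := by
    refine LinearMap.ext fun v => funext fun I => ?_
    change ∑ J, (0 : Matrix (Fin 8) (Fin 8) ℤ) I J • v J = 0
    simp
  map_add' K K' := by
    refine LinearMap.ext fun v => funext fun I => ?_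
    change ∑ J, (K + K') I J • v J = ∑ J, K I J • v J + ∑ J, K' I J • v J
    simp only [Matrix.add_apply, add_smul, Finset.sum_add_distrib]

/-- the action of `eᵢ ∈ C'` on the free module -/
noncomputable def LL (Mx : Matrix (Fin 4) (Fin 4) A3) (i : Fin 3) : Module.End A3 (Lam M) :=
  mat M (wI i) + ∑ j : Fin 3, Mx i.castSucc j.castSucc • mat M (cI j)

variable {M} {M' : Type} [AddCommGroup M'] [Module A3 M']

/-- `1 ⊗ g` -/
noncomputable def cw (g : M →ₗ[A3] M') : Lam M →ₗ[A3] Lam M' := g.compLeft (Fin 8)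

variable [Module ℂ M] [IsScalarTower ℂ A3 M] [Module ℂ M'] [IsScalarTower ℂ A3 M']

/-- the grading of `Λ ⊗ M` -/
def lamG (G : ℤ → Submodule ℂ M) (a : ℤ) : Submodule ℂ (Lam M) where
  carrier := {v | ∀ I, v I ∈ G (a - lv I)}
  zero_mem' := fun _ => zero_mem _
  add_mem' := fun h h' I => add_mem (h I) (h' I)
  smul_mem' := fun c _ h I => Submodule.smul_mem _ c (h I)

/-- maps of degree `k` -/
def Dk (G : ℤ → Submodule ℂ M) (G' : ℤ → Submodule ℂ M') (k : ℤ) : Submodule ℂ (M →ₗ[A3] M') where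
  carrier := {f | ∀ a, ∀ v ∈ G a, f v ∈ G' (a + k)}
  zero_mem' := fun _ _ _ => zero_mem _
  add_mem' := fun h h' a v hv => add_mem (h a v hv) (h' a v hv)
  smul_mem' := fun c _ h a v hv => Submodule.smul_mem _ c (h a v hv)

/-- `C'`-linear (`s = 1`) and `C'`-antilinear (`s = -1`) maps of degree `k` -/
def PP (Mx : Matrix (Fin 4) (Fin 4) A3) (s : ℤ) (G : ℤ → Submodule ℂ M)
    (G' : ℤ → Submodule ℂ M') (k : ℤ) : Submodule ℂ (Lam M →ₗ[A3] Lam M') where
  carrier := {f | f ∈ Dk (lamG G) (lamG G') k ∧ ∀ i, f ∘ₗ LL M Mx i = s • (LL M' Mx i ∘ₗ f)}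
  zero_mem' := ⟨zero_mem _, fun i => by simp⟩
  add_mem' := fun h h' => ⟨add_mem h.1 h'.1, fun i => by
    rw [LinearMap.add_comp, LinearMap.comp_add, h.2, h'.2, smul_add]⟩
  smul_mem' := fun c _ h => ⟨Submodule.smul_mem _ c h.1, fun i => by
    rw [LinearMap.smul_comp, LinearMap.comp_smul, h.2, smul_comm]⟩

/-- a structure of graded `C`-module on the free `C'`-module `Λ ⊗ M`: the action of `e₃` -/
structure LM (Mx : Matrix (Fin 4) (Fin 4) A3) (G : ℤ → Submodule ℂ M) where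
  E : Module.End A3 (Lam M)
  deg : E ∈ Dk (lamG G) (lamG G) 3
  anti : ∀ i : Fin 3, E * LL M Mx i + LL M Mx i * E = (2 * Mx i.castSucc 3) • 1
  sq : E * E = Mx 3 3 • 1

variable {Mx : Matrix (Fin 4) (Fin 4) A3} {G : ℤ → Submodule ℂ M} {G' : ℤ → Submodule ℂ M'}

/-- `C`-linear maps of degree `j` -/
def ZC (N : LM Mx G) (N' : LM Mx G') (j : ℤ) : Submodule ℂ (Lam M →ₗ[A3] Lam M') where
  carrier := {f | f ∈ PP Mx 1 G G' j ∧ N'.E ∘ₗ f = f ∘ₗ N.E}
  zero_mem' := ⟨zero_mem _, by simp⟩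
  add_mem' := fun h h' => ⟨add_mem h.1 h'.1, by
    rw [LinearMap.add_comp, LinearMap.comp_add, h.2, h'.2]⟩
  smul_mem' := fun c _ h => ⟨Submodule.smul_mem _ c h.1, by
    rw [LinearMap.smul_comp, LinearMap.comp_smul, h.2]⟩

/-- null-homotopic maps of degree `j` -/
def BC (N : LM Mx G) (N' : LM Mx G') (j : ℤ) : Submodule ℂ (Lam M →ₗ[A3] Lam M') where
  carrier := {f | ∃ h ∈ PP Mx (-1) G G' (j - 3), f = N'.E ∘ₗ h + h ∘ₗ N.E}
  zero_mem' := ⟨0, zero_mem _, by simp⟩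
  add_mem' := by
    rintro _ _ ⟨h, h1, rfl⟩ ⟨h', h1', rfl⟩
    refine ⟨h + h', add_mem h1 h1', ?_⟩
    rw [LinearMap.add_comp, LinearMap.comp_add]
    abel
  smul_mem' := by
    rintro c _ ⟨h, h1, rfl⟩
    refine ⟨c • h, Submodule.smul_mem _ c h1, ?_⟩
    rw [LinearMap.smul_comp, LinearMap.comp_smul, smul_add]

end

/-- the grading of a free `A`-module with generators in the degrees `g i` -/
def frG {ι : Type} (g : ι → ℤ) (a : ℤ) : Submodule ℂ (ι → A3) where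
  carrier := {v | ∀ i, Hg (a - g i) (v i)}
  zero_mem' := fun _ => hg_zero _
  add_mem' := fun h h' i => hg_add (h i) (h' i)
  smul_mem' := fun c _ h i => hg_smul c (h i)

/-- finite models: graded `C`-modules which are free of finite rank over `C'` -/
structure FM (Mx : Matrix (Fin 4) (Fin 4) A3) where
  r : ℕ
  g : Fin r → ℤ
  N : LM Mx (frG g)

/-- setting `x = 0` -/
noncomputable def x0 : MvPolynomial (Fin 6) ℂ →ₐ[ℂ] A3 := aeval ![0, 0, 0, X 0, X 1, X 2]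

/-- the complex `M / x M` is exact in large degrees -/
def ExL {W : MvPolynomial (Fin 6) ℂ} {n : ℕ} (X : GMF W n) : Prop :=
  ∃ a₀ : ℤ, ∀ a ≥ a₀, ∀ v ∈ frG X.p a, (X.d.map x0).mulVec v = 0 →
    ∃ u ∈ frG X.p (a - 3), (X.d.map x0).mulVec u = v

end Vale.Agent.P287Z.T
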