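import Vale.Agent.P287Z.T.Lam2

/-!
# Exactness of the Koszul complex of three commutators (P287, block T2)
-/

set_option linter.unusedSectionVars false
set_option linter.unusedSimpArgs false
set_option linter.unusedVariables false

open MvPolynomial

namespace Vale.Agent.P287Z.T

open O.V

section

variable {M N : Type} [AddCommGroup M] [Module A3 M] [AddCommGroup N] [Module A3 N]

theorem exists_tau (y Δ : Module.End A3 M) (y' : Module.End A3 N) (hΔ : Δ * y = 1)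
    (hn : ∀ m, ∃ n : ℕ, (Δ ^ n) m = 0) (ψ : M →ₗ[A3] N) :
    ∃ u : M →ₗ[A3] N, y' ∘ₗ u - u ∘ₗ y = ψ ∧ ∀ m n, (Δ ^ n) m = 0 →
      u m = -∑ k ∈ Finset.range n, (y' ^ k) (ψ ((Δ ^ (k + 1)) m)) := by
  have up : ∀ m n n', n ≤ n' → (Δ ^ n) m = 0 → (Δ ^ n') m = 0 := by
    intro m n n' h h0
    obtain ⟨c, rfl⟩ := Nat.exists_eq_add_of_le h
    rw [add_comm, pow_add, Module.End.mul_apply, h0, map_zero]
  let S : M → ℕ → N := fun m n => ∑ k ∈ Finset.range n, (y' ^ k) (ψ ((Δ ^ (k + 1)) m))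
  have st : ∀ m n n', n ≤ n' → (Δ ^ n) m = 0 → S m n = S m n' := by
    intro m n n' h h0
    refine Finset.sum_subset (Finset.range_mono h) fun k _ hk => ?_
    rw [up m n (k + 1) (by simp at hk; omega) h0, map_zero, map_zero]
  have st' : ∀ m n n', (Δ ^ n) m = 0 → (Δ ^ n') m = 0 → S m n = S m n' := fun m n n' h h' =>
    (st m n _ (le_max_left n n') h).trans (st m n' _ (le_max_right n n') h').symm
  choose ν hν using hn
  have ad : ∀ m m', S (m + m') (ν (m + m')) = S m (ν m) + S m' (ν m') := by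
    intro m m'
    have h1 := up m _ _ (le_max_left (ν m) (ν m')) (hν m)
    have h2 := up m' _ _ (le_max_right (ν m) (ν m')) (hν m')
    rw [st' _ _ _ (hν m) h1, st' _ _ _ (hν m') h2,
      st' _ _ (max (ν m) (ν m')) (hν (m + m')) (by rw [map_add, h1, h2, add_zero])]
    simp only [S, map_add, Finset.sum_add_distrib]
  have sm : ∀ (r : A3) m, S (r • m) (ν (r • m)) = r • S m (ν m) := by
    intro r m
    rw [st' _ _ (ν m) (hν (r • m)) (by rw [map_smul, hν, smul_zero])]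
    simp only [S, map_smul, Finset.smul_sum]
  let u : M →ₗ[A3] N :=
    { toFun := fun m => -S m (ν m)
      map_add' := fun m m' => by rw [ad, neg_add]
      map_smul' := fun r m => by rw [sm, RingHom.id_apply, smul_neg] }
  have hu : ∀ m n, (Δ ^ n) m = 0 → u m = -S m n := fun m n h =>
    congrArg Neg.neg (st' _ _ _ (hν m) h)
  refine ⟨u, LinearMap.ext fun m => ?_, hu⟩
  have h1 : ∀ k, (Δ ^ (k + 1)) (y m) = (Δ ^ k) m := fun k => by
    rw [← Module.End.mul_apply, pow_succ, mul_assoc, hΔ, mul_one]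
  rw [LinearMap.sub_apply, LinearMap.comp_apply, LinearMap.comp_apply, hu m _ (hν m),
    hu (y m) (ν m + 1) (by rw [h1, hν])]
  simp only [S, h1]
  rw [Finset.sum_range_succ', map_neg, map_sum]
  simp only [pow_succ' y', Module.End.mul_apply, pow_zero, Module.End.one_apply]
  abel

variable [Module ℂ M] [IsScalarTower ℂ A3 M] [Module ℂ N] [IsScalarTower ℂ A3 N]
  {G : ℤ → Submodule ℂ M} {G' : ℤ → Submodule ℂ N}

theorem dk_pow {d : ℤ} {f : Module.End A3 M} (hf : f ∈ Dk G G d) (k : ℕ) :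
    f ^ k ∈ Dk G G (k * d) := by
  induction k with
  | zero => exact dk_of_eq dk_id (by simp)
  | succ k ih =>
    rw [pow_succ]
    exact dk_comp ih hf (by push_cast; ring)

theorem cor (y Δ : Module.End A3 M) (y' : Module.End A3 N) (hΔ : Δ * y = 1)
    (hn : ∀ m, ∃ n : ℕ, (Δ ^ n) m = 0) (d1 : Δ ∈ Dk G G (-2)) (d2 : y' ∈ Dk G' G' 2) {k : ℤ}
    {ψ : M →ₗ[A3] N} (hψ : ψ ∈ Dk G G' k) :
    ∃ u ∈ Dk G G' (k - 2), y' ∘ₗ u - u ∘ₗ y = ψ ∧ ∀ (z : Module.End A3 M) (z' : Module.End A3 N),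
      Commute z Δ → Commute z' y' → z' ∘ₗ ψ - ψ ∘ₗ z = 0 → z' ∘ₗ u - u ∘ₗ z = 0 := by
  obtain ⟨u, h1, h2⟩ := exists_tau y Δ y' hΔ hn ψ
  refine ⟨u, fun a m hm => ?_, h1, fun z z' c1 c2 h => LinearMap.ext fun m => ?_⟩
  · obtain ⟨n, h3⟩ := hn m
    rw [h2 m n h3]
    refine neg_mem (Submodule.sum_mem _ fun i _ => ?_)
    exact mem_of_eq (dk_pow d2 i _ _ (hψ _ _ (dk_pow d1 (i + 1) _ _ hm))) (by push_cast; ring)
  · obtain ⟨n, h3⟩ := hn m
    have h4 : ∀ i : ℕ, (Δ ^ i) (z m) = z ((Δ ^ i) m) := fun i =>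
      (LinearMap.congr_fun (c1.pow_right i).eq m).symm
    have h5 : ∀ (i : ℕ) x, z' ((y' ^ i) x) = (y' ^ i) (z' x) := fun i x =>
      LinearMap.congr_fun (c2.pow_right i).eq x
    have h6 : ∀ x, z' (ψ x) = ψ (z x) := fun x => sub_eq_zero.1 (LinearMap.congr_fun h x)
    rw [LinearMap.sub_apply, LinearMap.comp_apply, LinearMap.comp_apply, h2 m n h3,
      h2 (z m) n (by rw [h4, h3, map_zero]), map_neg, map_sum]
    simp only [h4, h5, h6, sub_self, LinearMap.zero_apply]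

/-- the filtration by the exterior degree -/
def Fil (M : Type) [AddCommGroup M] [Module A3 M] (t : ℤ) : Submodule A3 (Lam M) where
  carrier := {v | ∀ I, t < lv I → v I = 0}
  zero_mem' := fun _ _ => rfl
  add_mem' := fun h h' I hI => by rw [Pi.add_apply, h I hI, h' I hI, add_zero]
  smul_mem' := fun r _ h I hI => by rw [Pi.smul_apply, h I hI, smul_zero]

/-- the Koszul differential -/
noncomputable def del (ad : Fin 3 → Module.End A3 M) : Module.End A3 (Lam M) :=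
  ∑ i, mat M (wI i) ∘ₗ cw (ad i)

theorem del_apply (ad : Fin 3 → Module.End A3 M) (Φ : Lam M) : del ad Φ =
    ![0, ad 0 (Φ 0), ad 1 (Φ 0), ad 0 (Φ 2) - ad 1 (Φ 1), ad 2 (Φ 0), ad 0 (Φ 4) - ad 2 (Φ 1),
      ad 1 (Φ 4) - ad 2 (Φ 2), ad 0 (Φ 6) - ad 1 (Φ 5) + ad 2 (Φ 3)] := by
  funext I
  rw [del, LinearMap.sum_apply, Fin.sum_univ_three]
  simp only [Pi.add_apply, LinearMap.comp_apply, mat_apply, cw_apply]
  fin_cases I <;> simp [wI, Fin.sum_univ_succ, sub_eq_add_neg]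

theorem kos (ad : Fin 3 → Module.End A3 M) (hc : ∀ i j x, ad i (ad j x) = ad j (ad i x))
    (hd : ∀ i, ad i ∈ Dk G G 2)
    (hs : ∀ i k, ∀ ψ ∈ G k, ∃ u ∈ G (k - 2), ad i u = ψ ∧ ∀ j, j ≠ i → ad j ψ = 0 → ad j u = 0)
    {t : ℤ} (h1 : 1 ≤ t) (h3 : t ≤ 3) {k : ℤ} {Φ : Lam M} (hΦ : Φ ∈ lamG G k)
    (hdel : del ad Φ ∈ Fil M t) (hF : Φ ∈ Fil M t) :
    ∃ X ∈ lamG G (k - 3), X ∈ Fil M (t - 1) ∧ Φ - del ad X ∈ Fil M (t - 1) := by
  rw [del_apply] at hdel
  interval_cases t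
  · have e3 : ad 0 (Φ 2) - ad 1 (Φ 1) = 0 := hdel 3 (by decide)
    have e5 : ad 0 (Φ 4) - ad 2 (Φ 1) = 0 := hdel 5 (by decide)
    have e6 : ad 1 (Φ 4) - ad 2 (Φ 2) = 0 := hdel 6 (by decide)
    obtain ⟨u0, g0, a0, -⟩ := hs 0 (k - 1) (Φ 1) (hΦ 1)
    obtain ⟨u1, g1, a1, b1⟩ := hs 1 (k - 1) (Φ 2 - ad 1 u0)
      (sub_mem (hΦ 2) (mem_of_eq (hd 1 _ _ g0) (by ring)))
    have c1 := b1 0 (by decide) (by rw [map_sub, hc 0 1, a0, e3])
    obtain ⟨u2, g2, a2, b2⟩ := hs 2 (k - 1) (Φ 4 - ad 2 u0 - ad 2 u1)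
      (sub_mem (sub_mem (hΦ 4) (mem_of_eq (hd 2 _ _ g0) (by ring)))
        (mem_of_eq (hd 2 _ _ g1) (by ring)))
    have c2 := b2 0 (by decide) (by
      rw [map_sub, map_sub, hc 0 2, hc 0 2, a0, c1, e5, map_zero, sub_zero])
    have c3 := b2 1 (by decide) (by
      rw [map_sub, map_sub, hc 1 2, hc 1 2, a1, map_sub, ← e6]
      abel)
    refine ⟨Pi.single 0 (u0 + u1 + u2), single_lam 0 (mem_of_eq (add_mem (add_mem g0 g1) g2)
      (by simp [lv]; ring)), fun I hI => ?_, fun I hI => ?_⟩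
    · exact Pi.single_eq_of_ne (by rintro rfl; simp [lv] at hI) _
    · rw [del_apply]
      have f3 := hF 3 (by decide)
      have f5 := hF 5 (by decide)
      have f6 := hF 6 (by decide)
      have f7 := hF 7 (by decide)
      fin_cases I
      · simp [lv] at hI
      all_goals simp [a0, a1, a2, c1, c2, c3, f3, f5, f6, f7]
  · have e7 : ad 0 (Φ 6) - ad 1 (Φ 5) + ad 2 (Φ 3) = 0 := hdel 7 (by decide)
    obtain ⟨u2, g2, a2, -⟩ := hs 0 (k - 2) (Φ 3) (hΦ 3)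
    obtain ⟨u4, g4, a4, -⟩ := hs 0 (k - 2) (Φ 5) (hΦ 5)
    obtain ⟨u, g, a, b⟩ := hs 1 (k - 2) (Φ 6 - ad 1 u4 + ad 2 u2)
      (add_mem (sub_mem (hΦ 6) (mem_of_eq (hd 1 _ _ g4) (by ring)))
        (mem_of_eq (hd 2 _ _ g2) (by ring)))
    have c := b 0 (by decide) (by rw [map_add, map_sub, hc 0 1, hc 0 2, a2, a4, e7])
    refine ⟨Pi.single 2 u2 + Pi.single 4 (u4 + u), add_mem
      (single_lam 2 (mem_of_eq g2 (by simp [lv]; ring)))
      (single_lam 4 (mem_of_eq (add_mem g4 g) (by simp [lv]; ring))), fun I hI => ?_,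
      fun I hI => ?_⟩
    · rw [Pi.add_apply, Pi.single_eq_of_ne (by rintro rfl; simp [lv] at hI),
        Pi.single_eq_of_ne (by rintro rfl; simp [lv] at hI), add_zero]
    · rw [del_apply]
      have f7 := hF 7 (by decide)
      fin_cases I
      all_goals first | (simp [lv] at hI; done) | simp [a2, a4, a, c, f7]
      abel
  · obtain ⟨u, g, a, -⟩ := hs 0 (k - 3) (Φ 7) (hΦ 7)
    refine ⟨Pi.single 6 u, single_lam 6 (mem_of_eq g (by simp [lv])), fun I hI => ?_,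
      fun I hI => ?_⟩
    · exact Pi.single_eq_of_ne (by rintro rfl; simp [lv] at hI) _
    · rw [del_apply]
      fin_cases I
      all_goals first | (simp [lv] at hI; done) | simp [a]

end

end Vale.Agent.P287Z.T
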