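import Vale.Agent.P287Z.T.Gm

/-!
# The free `C'`-modules: relations and the universal property (P287, block T2)
-/

set_option linter.unusedSectionVars false
set_option linter.unusedSimpArgs false

open MvPolynomial

namespace Vale.Agent.P287Z.T

open O.V

theorem wI_wI : ∀ i j, wI i * wI j + wI j * wI i = 0 := by decide +kernel
theorem cI_cI : ∀ i j, cI i * cI j + cI j * cI i = 0 := by decide +kernel
theorem wI_cI : ∀ i j, wI i * cI j + cI j * wI i = if i = j then 1 else 0 := by decide +kernel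
theorem eI_eI : eI * eI = 1 := by decide +kernel
theorem eI_wI : ∀ i, eI * wI i + wI i * eI = 0 := by decide +kernel
theorem eI_cI : ∀ i, eI * cI i + cI i * eI = 0 := by decide +kernel
theorem wI_lv' : ∀ i I J, wI i I J * (lv I - (lv J + 1)) = 0 := by decide +kernel
theorem cI_lv' : ∀ i I J, cI i I J * (lv I - (lv J + -1)) = 0 := by decide +kernel
theorem eI_lv' : ∀ I J, eI I J * (lv I - (lv J + 0)) = 0 := by decide +kernel
theorem wI_lv (i : Fin 3) (I J : Fin 8) : wI i I J = 0 ∨ lv I = lv J + 1 :=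
  (mul_eq_zero.1 (wI_lv' i I J)).imp_right sub_eq_zero.1
theorem cI_lv (i : Fin 3) (I J : Fin 8) : cI i I J = 0 ∨ lv I = lv J + -1 :=
  (mul_eq_zero.1 (cI_lv' i I J)).imp_right sub_eq_zero.1
theorem eI_lv (I J : Fin 8) : eI I J = 0 ∨ lv I = lv J + 0 :=
  (mul_eq_zero.1 (eI_lv' I J)).imp_right sub_eq_zero.1
theorem lv_nonneg : ∀ I, 0 ≤ lv I := by decide +kernel
theorem lv_le : ∀ I, lv I ≤ 3 := by decide +kernel
theorem lv_zero : ∀ I, lv I ≤ 0 → I = 0 := by decide +kernel
theorem wI_gen : ∀ I : Fin 8, I ≠ 0 → ∃ i I', lv I' + 1 = lv I ∧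
    ∀ J, wI i J I' = if J = I then 1 else 0 := by decide +kernel
theorem eI_col : ∀ J, eI J 0 = if J = 0 then 1 else 0 := by decide +kernel
theorem eI_row : ∀ J, eI 0 J = if J = 0 then 1 else 0 := by decide +kernel

section anti

variable {R E : Type*} [CommRing R] [Ring E] (μ : R →+* E)

theorem anti_sum {ι κ : Type*} [Fintype ι] [Fintype κ] (r : ι → R) (r' : κ → R) (u : ι → E)
    (v : κ → E) (hu : ∀ a x, u a * μ x = μ x * u a) (hv : ∀ b x, v b * μ x = μ x * v b) :
    (∑ a, μ (r a) * u a) * (∑ b, μ (r' b) * v b) + (∑ b, μ (r' b) * v b) * (∑ a, μ (r a) * u a) =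
      ∑ a, ∑ b, μ (r a * r' b) * (u a * v b + v b * u a) := by
  rw [Finset.sum_mul_sum, Finset.sum_mul_sum, Finset.sum_comm (s := (Finset.univ : Finset κ)),
    ← Finset.sum_add_distrib]
  refine Finset.sum_congr rfl fun a _ => ?_
  rw [← Finset.sum_add_distrib]
  refine Finset.sum_congr rfl fun b _ => ?_
  have h1 : μ (r a) * u a * (μ (r' b) * v b) = μ (r a * r' b) * (u a * v b) := by
    rw [mul_assoc, ← mul_assoc (u a), hu, map_mul, mul_assoc, mul_assoc]
  have h2 : μ (r' b) * v b * (μ (r a) * u a) = μ (r a * r' b) * (v b * u a) := by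
    rw [mul_assoc, ← mul_assoc (v b), hv, mul_comm (r a), map_mul, mul_assoc, mul_assoc]
  rw [h1, h2, mul_add]

variable (ψ : Matrix (Fin 8) (Fin 8) ℤ →+* E)

/-- Koszul operators -/
def KK (q l : Fin 3 → R) : E := ∑ i, μ (q i) * ψ (wI i) + ∑ i, μ (l i) * ψ (cI i)

theorem KK_anti (h : ∀ K x, ψ K * μ x = μ x * ψ K) (q l q' l' : Fin 3 → R) :
    KK μ ψ q l * KK μ ψ q' l' + KK μ ψ q' l' * KK μ ψ q l =
      μ (∑ i, (q i * l' i + l i * q' i)) := by
  have e1 := anti_sum μ q q' (fun i => ψ (wI i)) (fun i => ψ (wI i)) (fun _ => h _) (fun _ => h _)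
  have e2 := anti_sum μ q l' (fun i => ψ (wI i)) (fun i => ψ (cI i)) (fun _ => h _) (fun _ => h _)
  have e3 := anti_sum μ l q' (fun i => ψ (cI i)) (fun i => ψ (wI i)) (fun _ => h _) (fun _ => h _)
  have e4 := anti_sum μ l l' (fun i => ψ (cI i)) (fun i => ψ (cI i)) (fun _ => h _) (fun _ => h _)
  have f2 : ∀ a b, ψ (wI a) * ψ (cI b) + ψ (cI b) * ψ (wI a) = if a = b then 1 else 0 := by
    intro a b
    rw [← map_mul, ← map_mul, ← map_add, wI_cI]
    split_ifs <;> simp
  have f3 : ∀ a b, ψ (cI a) * ψ (wI b) + ψ (wI b) * ψ (cI a) = if a = b then 1 else 0 := by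
    intro a b
    rw [add_comm, f2]
    exact if_congr eq_comm rfl rfl
  simp only [← map_mul, ← map_add, wI_wI, cI_cI, map_zero, mul_zero, Finset.sum_const_zero]
    at e1 e4
  simp only [f2, f3, mul_ite, mul_one, mul_zero, Finset.sum_ite_eq, Finset.mem_univ, if_true]
    at e2 e3
  rw [map_sum]
  simp only [map_add, Finset.sum_add_distrib]
  rw [← e2, ← e3, KK, KK]
  have key : ∀ a b c d : E, a * c + c * a = 0 → b * d + d * b = 0 →
      (a + b) * (c + d) + (c + d) * (a + b) = a * d + d * a + (b * c + c * b) := by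
    intro a b c d h1 h2
    have : (a + b) * (c + d) + (c + d) * (a + b) = a * d + d * a + (b * c + c * b) +
      (a * c + c * a) + (b * d + d * b) := by noncomm_ring
    rw [this, h1, h2, add_zero, add_zero]
  exact key _ _ _ _ e1 e4

theorem KK_eps (h : ∀ K x, ψ K * μ x = μ x * ψ K) (q l : Fin 3 → R) :
    ψ eI * KK μ ψ q l + KK μ ψ q l * ψ eI = 0 := by
  have f : ∀ (x : R) (K : Matrix (Fin 8) (Fin 8) ℤ), eI * K + K * eI = 0 →
      ψ eI * (μ x * ψ K) + μ x * ψ K * ψ eI = 0 := by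
    intro x K hK
    rw [← mul_assoc, h, mul_assoc, mul_assoc, ← mul_add, ← map_mul, ← map_mul, ← map_add, hK,
      map_zero, mul_zero]
  rw [KK, mul_add, add_mul, Finset.mul_sum, Finset.mul_sum, Finset.sum_mul, Finset.sum_mul,
    add_add_add_comm, ← Finset.sum_add_distrib, ← Finset.sum_add_distrib,
    Finset.sum_eq_zero fun i _ => f _ _ (eI_wI i), Finset.sum_eq_zero fun i _ => f _ _ (eI_cI i),
    add_zero]

end anti

section rho

variable {R E : Type*} [CommRing R] [Ring E] [Algebra R E]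

/-- the action of the exterior monomials -/
def rho (m : Fin 3 → Fin 3 → R) (a : Fin 3 → E) : Fin 8 → E :=
  ![1, a 0, a 1, a 0 * a 1 - m 0 1 • 1, a 2, a 0 * a 2 - m 0 2 • 1, a 1 * a 2 - m 1 2 • 1,
    a 0 * (a 1 * a 2) - m 0 1 • a 2 + m 0 2 • a 1 - m 1 2 • a 0]

theorem wI_sum {V : Type*} [AddCommGroup V] (r : Fin 8 → V) :
    (∀ I, ∑ J, wI 0 J I • r J = ![r 1, 0, r 3, 0, r 5, 0, r 7, 0] I) ∧
    (∀ I, ∑ J, wI 1 J I • r J = ![r 2, -r 3, 0, 0, r 6, -r 7, 0, 0] I) ∧
    (∀ I, ∑ J, wI 2 J I • r J = ![r 4, -r 5, -r 6, r 7, 0, 0, 0, 0] I) := by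
  refine ⟨fun I => ?_, fun I => ?_, fun I => ?_⟩ <;> fin_cases I <;>
    simp [wI, Fin.sum_univ_succ]

theorem cI_sum {V : Type*} [AddCommGroup V] (r : Fin 8 → V) :
    (∀ I, ∑ J, cI 0 J I • r J = ![0, r 0, 0, r 2, 0, r 4, 0, r 6] I) ∧
    (∀ I, ∑ J, cI 1 J I • r J = ![0, 0, r 0, -r 1, 0, 0, r 4, -r 5] I) ∧
    (∀ I, ∑ J, cI 2 J I • r J = ![0, 0, 0, 0, r 0, -r 1, -r 2, r 3] I) := by
  refine ⟨fun I => ?_, fun I => ?_, fun I => ?_⟩ <;> fin_cases I <;>
    simp [cI, wI, Fin.sum_univ_succ]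

theorem mul_rho (m : Fin 3 → Fin 3 → R) (hm : ∀ i j, m i j = m j i) (a : Fin 3 → E)
    (h0 : ∀ i, a i * a i = m i i • 1) (h : ∀ i j, a i * a j + a j * a i = (2 * m i j) • 1)
    (i : Fin 3) (I : Fin 8) : a i * rho m a I =
      ∑ J, wI i J I • rho m a J + ∑ j, m i j • ∑ J, cI j J I • rho m a J := by
  have r : ∀ i j, a j * a i = (2 * m i j) • 1 - a i * a j := fun i j => by
    rw [← h i j]; abel
  have r' : ∀ i j x, a j * (a i * x) = (2 * m i j) • x - a i * (a j * x) := fun i j x => by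
    rw [← mul_assoc, r i j, sub_mul, smul_mul_assoc, one_mul, mul_assoc]
  have h0' : ∀ i x, a i * (a i * x) = m i i • x := fun i x => by
    rw [← mul_assoc, h0, smul_mul_assoc, one_mul]
  have r01 := r 0 1
  have r02 := r 0 2
  have r12 := r 1 2
  have s01 := r' 0 1
  have s02 := r' 0 2
  have s12 := r' 1 2
  have m10 := hm 1 0
  have m20 := hm 2 0
  have m21 := hm 2 1
  obtain ⟨w0, w1, w2⟩ := wI_sum (rho m a)
  obtain ⟨c0, c1, c2⟩ := cI_sum (rho m a)
  rw [Fin.sum_univ_three, c0, c1, c2]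
  fin_cases i
  · erw [w0]
    fin_cases I <;>
    simp [rho, mul_sub, mul_add, r01, r02, r12, s01, s02, s12, h0, h0', m10, m20, m21] <;> module
  · erw [w1]
    fin_cases I <;>
    simp [rho, mul_sub, mul_add, r01, r02, r12, s01, s02, s12, h0, h0', m10, m20, m21] <;> module
  · erw [w2]
    fin_cases I <;>
    simp [rho, mul_sub, mul_add, r01, r02, r12, s01, s02, s12, h0, h0', m10, m20, m21] <;> module

end rho

section

variable {M M' M'' N : Type} [AddCommGroup M] [Module A3 M] [AddCommGroup M'] [Module A3 M']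
  [AddCommGroup M''] [Module A3 M''] [AddCommGroup N] [Module A3 N]

theorem mat_apply (K : Matrix (Fin 8) (Fin 8) ℤ) (v : Lam M) (I : Fin 8) :
    mat M K v I = ∑ J, K I J • v J := rfl

@[simp] theorem cw_apply (g : M →ₗ[A3] M') (v : Lam M) (I : Fin 8) : cw g v I = g (v I) := rfl

theorem cw_mat (g : M →ₗ[A3] M') (K : Matrix (Fin 8) (Fin 8) ℤ) :
    cw g ∘ₗ mat M K = mat M' K ∘ₗ cw g := by
  refine LinearMap.ext fun v => funext fun I => ?_
  change g (∑ J, K I J • v J) = ∑ J, K I J • g (v J)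
  simp only [map_sum, map_zsmul]

theorem cw_comp (g : M →ₗ[A3] M') (g' : M' →ₗ[A3] M'') : cw (g' ∘ₗ g) = cw g' ∘ₗ cw g := rfl
theorem cw_id : cw (LinearMap.id : M →ₗ[A3] M) = LinearMap.id := rfl
theorem cw_add (g g' : M →ₗ[A3] M') : cw (g + g') = cw g + cw g' := rfl
theorem cw_sub (g g' : M →ₗ[A3] M') : cw (g - g') = cw g - cw g' := rfl
theorem cw_zero : cw (0 : M →ₗ[A3] M') = 0 := rfl

variable (Mx : Matrix (Fin 4) (Fin 4) A3)

theorem cw_LL (g : M →ₗ[A3] M') (i : Fin 3) : cw g ∘ₗ LL M Mx i = LL M' Mx i ∘ₗ cw g := by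
  refine LinearMap.ext fun v => ?_
  have h : ∀ K, cw g (mat M K v) = mat M' K (cw g v) := fun K =>
    LinearMap.congr_fun (cw_mat g K) v
  simp only [LL, LinearMap.comp_apply, LinearMap.add_apply, LinearMap.sum_apply,
    LinearMap.smul_apply, map_add, map_sum, map_smul, h]

theorem LL_eq (i : Fin 3) : LL M Mx i = KK (algebraMap A3 (Module.End A3 (Lam M))) (mat M)
    (fun j => if i = j then 1 else 0) (fun j => Mx i.castSucc j.castSucc) := by
  rw [LL, KK]
  congr 1
  · rw [Finset.sum_eq_single i]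
    · rw [if_pos rfl, map_one, one_mul]
    · intro j _ hj
      rw [if_neg hj.symm, map_zero, zero_mul]
    · intro h
      exact absurd (Finset.mem_univ i) h

theorem LL_anti (hM : Mx.IsSymm) (i j : Fin 3) :
    LL M Mx i * LL M Mx j + LL M Mx j * LL M Mx i = (2 * Mx i.castSucc j.castSucc) • 1 := by
  rw [LL_eq, LL_eq, KK_anti _ _ (fun K x => (Algebra.commutes x _).symm),
    Algebra.algebraMap_eq_smul_one]
  congr 1
  simp only [ite_mul, one_mul, zero_mul, mul_ite, mul_one, mul_zero, Finset.sum_add_distrib,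
    Finset.sum_ite_eq, Finset.mem_univ, if_true]
  rw [hM.apply i.castSucc j.castSucc]
  ring

theorem eps_LL (i : Fin 3) : mat M eI * LL M Mx i + LL M Mx i * mat M eI = 0 := by
  rw [LL_eq]
  exact KK_eps _ _ (fun K x => (Algebra.commutes x _).symm) _ _

theorem eps_eps : mat M eI * mat M eI = 1 := by rw [← map_mul, eI_eI, map_one]

theorem sq_of_anti {x : Module.End A3 N} {c : A3} (h : x * x + x * x = (2 * c) • 1) :
    x * x = c • 1 := by
  have h2 : (C (2 : ℂ)⁻¹ * 2 : A3) = 1 := by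
    rw [show (2 : A3) = C 2 from rfl, ← C_mul]
    norm_num
  rw [← one_smul A3 (x * x), ← h2, mul_smul, two_smul, h, smul_smul, ← mul_assoc, h2, one_mul]

/-- the `3 × 3` block -/
def m3 (i j : Fin 3) : A3 := Mx i.castSucc j.castSucc

/-- the inclusion of the generators -/
noncomputable def in0 (M : Type) [AddCommGroup M] [Module A3 M] : M →ₗ[A3] Lam M :=
  LinearMap.single A3 (fun _ => M) 0

theorem in0_apply (x : M) : in0 M x = Pi.single 0 x := rfl

/-- the extension of a map on the generators -/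
noncomputable def extn (a : Fin 3 → Module.End A3 N) (φ : M →ₗ[A3] N) : Lam M →ₗ[A3] N :=
  ∑ I : Fin 8, rho (m3 Mx) a I ∘ₗ φ ∘ₗ LinearMap.proj I

theorem extn_apply (a : Fin 3 → Module.End A3 N) (φ : M →ₗ[A3] N) (v : Lam M) :
    extn Mx a φ v = ∑ I, rho (m3 Mx) a I (φ (v I)) := by
  rw [extn, LinearMap.sum_apply]
  rfl

theorem extn_in0 (a : Fin 3 → Module.End A3 N) (φ : M →ₗ[A3] N) :
    extn Mx a φ ∘ₗ in0 M = φ := by
  refine LinearMap.ext fun x => ?_
  rw [LinearMap.comp_apply, extn_apply, Finset.sum_eq_single 0]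
  · rw [in0_apply, Pi.single_eq_same]
    rfl
  · intro I _ hI
    rw [in0_apply, Pi.single_eq_of_ne hI, map_zero, map_zero]
  · intro h
    exact absurd (Finset.mem_univ _) h

theorem extn_mat (a : Fin 3 → Module.End A3 N) (φ : M →ₗ[A3] N) (K : Matrix (Fin 8) (Fin 8) ℤ)
    (v : Lam M) : extn Mx a φ (mat M K v) = ∑ I, (∑ J, K J I • rho (m3 Mx) a J) (φ (v I)) := by
  rw [extn_apply]
  simp only [mat_apply, map_sum, map_zsmul, LinearMap.sum_apply, LinearMap.smul_apply]
  exact Finset.sum_comm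

theorem extn_LL (hM : Mx.IsSymm) (a : Fin 3 → Module.End A3 N)
    (h : ∀ i j, a i * a j + a j * a i = (2 * Mx i.castSucc j.castSucc) • 1) (φ : M →ₗ[A3] N)
    (i : Fin 3) : extn Mx a φ ∘ₗ LL M Mx i = a i ∘ₗ extn Mx a φ := by
  refine LinearMap.ext fun v => ?_
  have h1 := mul_rho (m3 Mx) (fun i j => hM.apply j.castSucc i.castSucc) a
    (fun i => sq_of_anti (h i i)) h i
  rw [LinearMap.comp_apply, LinearMap.comp_apply, extn_apply Mx a φ v, map_sum]
  have h2 : ∀ I, a i (rho (m3 Mx) a I (φ (v I))) = (a i * rho (m3 Mx) a I) (φ (v I)) :=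
    fun I => rfl
  simp only [h2, h1, LL, LinearMap.add_apply, LinearMap.sum_apply, LinearMap.smul_apply, map_add,
    map_sum, map_smul, extn_mat, Finset.sum_add_distrib, m3]
  congr 1
  simp only [Finset.smul_sum]
  exact Finset.sum_comm

theorem mat_single (K : Matrix (Fin 8) (Fin 8) ℤ) (I : Fin 8) (x : M) :
    mat M K (Pi.single I x) = ∑ J, K J I • Pi.single J x := by
  funext J
  rw [mat_apply, Finset.sum_eq_single I, Finset.sum_apply, Finset.sum_eq_single J]
  · simp
  · intro J' _ h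
    simp [h.symm]
  · intro h
    exact absurd (Finset.mem_univ _) h
  · intro J' _ h
    simp [h]
  · intro h
    exact absurd (Finset.mem_univ _) h

theorem single_mem (K : Submodule A3 (Lam M)) (h : ∀ i, ∀ v ∈ K, LL M Mx i v ∈ K) (x : M)
    (h0 : in0 M x ∈ K) (I : Fin 8) : (Pi.single I x : Lam M) ∈ K := by
  have key : ∀ t : ℕ, ∀ I, lv I ≤ t → (Pi.single I x : Lam M) ∈ K := by
    intro t
    induction t using Nat.strong_induction_on with
    | _ t ih =>
      intro I hI
      by_cases h1 : I = 0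
      · subst h1
        exact h0
      · obtain ⟨i, I', h2, h3⟩ := wI_gen I h1
        have h4 := lv_nonneg I'
        have h5 : (Pi.single I' x : Lam M) ∈ K := ih (t - 1) (by omega) I' (by omega)
        have h6 : mat M (wI i) (Pi.single I' x) = Pi.single I x := by
          rw [mat_single, Finset.sum_eq_single I]
          · rw [h3, if_pos rfl, one_smul]
          · intro J _ hJ
            rw [h3, if_neg hJ, zero_smul]
          · intro h
            exact absurd (Finset.mem_univ _) h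
        have h7 : ∀ j, mat M (cI j) (Pi.single I' x) ∈ K := by
          intro j
          rw [mat_single]
          refine K.sum_mem fun J _ => ?_
          by_cases h8 : cI j J I' = 0
          · rw [h8, zero_smul]
            exact K.zero_mem
          · have h9 := (cI_lv j J I').resolve_left h8
            exact zsmul_mem (ih (t - 1) (by omega) J (by omega)) _
        have h8 := h i _ h5
        rw [LL, LinearMap.add_apply, h6, LinearMap.sum_apply] at h8
        exact (K.add_mem_iff_left (K.sum_mem fun j _ => K.smul_mem _ (h7 j))).1 h8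
  exact key 3 I (lv_le I)

/-- the free module is generated by its generators -/
theorem gen_top (K : Submodule A3 (Lam M)) (h0 : ∀ x, in0 M x ∈ K)
    (h : ∀ i, ∀ v ∈ K, LL M Mx i v ∈ K) (v : Lam M) : v ∈ K := by
  rw [← Finset.univ_sum_single v]
  exact K.sum_mem fun I _ => single_mem Mx K h _ (h0 _) I

/-- uniqueness of the extension -/
theorem ext_in0 (a : Fin 3 → Module.End A3 N) {f g : Lam M →ₗ[A3] N}
    (hf : ∀ i, f ∘ₗ LL M Mx i = a i ∘ₗ f) (hg : ∀ i, g ∘ₗ LL M Mx i = a i ∘ₗ g)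
    (h : f ∘ₗ in0 M = g ∘ₗ in0 M) : f = g := by
  refine LinearMap.ext fun v => ?_
  refine gen_top Mx (LinearMap.eqLocus f g) (fun x => LinearMap.congr_fun h x) ?_ v
  intro i v hv
  have h1 : f v = g v := hv
  exact (LinearMap.congr_fun (hf i) v).trans ((congrArg (a i) h1).trans
    (LinearMap.congr_fun (hg i) v).symm)

end

end Vale.Agent.P287Z.T
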