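import Vale.Agent.P287Z.T.Lam

/-!
# Degrees, the universal property of the free `C'`-modules, homotopy equivalences (P287, block T2)
-/

set_option linter.unusedSectionVars false
set_option linter.unusedSimpArgs false
set_option linter.unusedVariables false

open MvPolynomial

namespace Vale.Agent.P287Z.T

open O.V

section hg

variable {σ : Type}

theorem hg_mul {a b c : ℤ} {f g : MvPolynomial σ ℂ} (hf : Hg a f) (hg : Hg b g) (h : c = a + b) :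
    Hg c (f * g) := h ▸ IsWeightedHomogeneous.mul hf hg

theorem hg_sum {ι : Type*} {a : ℤ} (s : Finset ι) {f : ι → MvPolynomial σ ℂ}
    (h : ∀ i ∈ s, Hg a (f i)) : Hg a (∑ i ∈ s, f i) :=
  Submodule.sum_mem (weightedHomogeneousSubmodule ℂ (fun _ => (2 : ℤ)) a) h

theorem hg_neg {a : ℤ} {f : MvPolynomial σ ℂ} (hf : Hg a f) : Hg a (-f) :=
  Submodule.neg_mem (weightedHomogeneousSubmodule ℂ (fun _ => (2 : ℤ)) a) hf

theorem hg_C (c : ℂ) : Hg 0 (C c : MvPolynomial σ ℂ) := isWeightedHomogeneous_C _ _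

theorem hg_X (i : σ) : Hg 2 (X i : MvPolynomial σ ℂ) := isWeightedHomogeneous_X _ _ _

theorem weight_two (d : σ →₀ ℕ) : Finsupp.weight (fun _ => (2 : ℤ)) d = 2 * (d.degree : ℤ) := by
  rw [Finsupp.weight_apply, Finsupp.degree_apply, Finsupp.sum]
  push_cast
  rw [Finset.mul_sum]
  exact Finset.sum_congr rfl fun i _ => by rw [nsmul_eq_mul, mul_comm]

theorem hg_iff {a : ℤ} {f : MvPolynomial σ ℂ} :
    Hg a f ↔ ∀ d, coeff d f ≠ 0 → 2 * (d.degree : ℤ) = a := by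
  simp only [← weight_two]
  rfl

theorem hg_of_hom {n : ℕ} {f : MvPolynomial σ ℂ} (h : f.IsHomogeneous n) : Hg (2 * n) f := by
  rw [hg_iff]
  intro d hd
  have h1 : d.degree = n := by
    rw [Finsupp.degree_eq_weight_one]
    exact h hd
  rw [h1]

theorem hg_lt {a : ℤ} {f : MvPolynomial σ ℂ} (hf : Hg a f) (ha : a < 0) : f = 0 := by
  ext d
  by_contra h
  have := hg_iff.1 hf d h
  omega

theorem hg_zero_eq {f : MvPolynomial σ ℂ} (hf : Hg 0 f) : f = C (constantCoeff f) := by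
  classical
  ext d
  rw [coeff_C]
  split_ifs with h
  · subst h
    rfl
  · by_contra h1
    have h2 := hg_iff.1 hf d h1
    exact h ((Finsupp.degree_eq_zero_iff d).1 (by omega)).symm

theorem hg_const {a : ℤ} {f : MvPolynomial σ ℂ} (hf : Hg a f) (ha : a ≠ 0) :
    constantCoeff f = 0 := by
  by_contra h
  have := hg_iff.1 hf 0 h
  simp at this
  exact ha this.symm

end hg

/-- the degrees of the entries of the matrix -/
structure FB (Mx : Matrix (Fin 4) (Fin 4) A3) : Prop where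
  symm : Mx.IsSymm
  h2 : ∀ i j : Fin 3, Hg 2 (Mx i.castSucc j.castSucc)
  h4 : ∀ i : Fin 3, Hg 4 (Mx i.castSucc 3)
  h6 : Hg 6 (Mx 3 3)

section

variable {M M' M'' : Type} [AddCommGroup M] [Module A3 M] [AddCommGroup M'] [Module A3 M']
  [AddCommGroup M''] [Module A3 M''] [Module ℂ M] [IsScalarTower ℂ A3 M] [Module ℂ M']
  [IsScalarTower ℂ A3 M'] [Module ℂ M''] [IsScalarTower ℂ A3 M'']
  {G : ℤ → Submodule ℂ M} {G' : ℤ → Submodule ℂ M'} {G'' : ℤ → Submodule ℂ M''}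

/-- the family `G` is a graded `A`-module -/
def IsGr (G : ℤ → Submodule ℂ M) : Prop :=
  ∀ (d a : ℤ) (r : A3), Hg d r → ∀ v ∈ G a, r • v ∈ G (a + d)

theorem mem_of_eq {a b : ℤ} {v : M} (h : v ∈ G a) (e : a = b) : v ∈ G b := e ▸ h

theorem dk_of_eq {k l : ℤ} {f : M →ₗ[A3] M'} (h : f ∈ Dk G G' k) (e : k = l) : f ∈ Dk G G' l :=
  e ▸ h

theorem dk_comp {k l m : ℤ} {f : M →ₗ[A3] M'} {g : M' →ₗ[A3] M''} (hg : g ∈ Dk G' G'' l)
    (hf : f ∈ Dk G G' k) (e : m = k + l) : g ∘ₗ f ∈ Dk G G'' m := fun a v hv =>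
  mem_of_eq (hg _ _ (hf a v hv)) (by rw [e, add_assoc])

theorem dk_id : (LinearMap.id : M →ₗ[A3] M) ∈ Dk G G 0 := fun a v hv =>
  mem_of_eq hv (add_zero a).symm

theorem dk_smul (hG : IsGr G') {k d m : ℤ} {r : A3} (hr : Hg d r) {f : M →ₗ[A3] M'}
    (hf : f ∈ Dk G G' k) (e : m = k + d) : r • f ∈ Dk G G' m := fun a v hv =>
  mem_of_eq (hG d _ r hr _ (hf a v hv)) (by rw [e, add_assoc])

theorem isGr_lam (hG : IsGr G) : IsGr (lamG G) := fun d a r hr v hv I =>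
  mem_of_eq (hG d _ r hr _ (hv I)) (by ring)

theorem isGr_dk (hG : IsGr G') : IsGr (Dk G G') := fun _ _ _ hr _ hf => dk_smul hG hr hf rfl

theorem isGr_fr {ι : Type} (g : ι → ℤ) : IsGr (frG g) := fun d a r hr v hv i =>
  hg_mul hr (hv i) (by ring)

theorem dk_mat {K : Matrix (Fin 8) (Fin 8) ℤ} {d : ℤ} (h : ∀ I J, K I J = 0 ∨ lv I = lv J + d) :
    mat M K ∈ Dk (lamG G) (lamG G) d := by
  intro a v hv I
  rw [mat_apply]
  refine Submodule.sum_mem _ fun J _ => ?_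
  rcases h I J with h1 | h1
  · rw [h1, zero_smul]
    exact zero_mem _
  · exact zsmul_mem (mem_of_eq (hv J) (by rw [h1]; ring)) _

theorem dk_cw {k : ℤ} {g : M →ₗ[A3] M'} (hg : g ∈ Dk G G' k) :
    cw g ∈ Dk (lamG G) (lamG G') k := fun a v hv I => mem_of_eq (hg _ _ (hv I)) (by ring)

theorem single_lam {a : ℤ} {x : M} (I : Fin 8) (hx : x ∈ G (a - lv I)) :
    (Pi.single I x : Lam M) ∈ lamG G a := by
  intro J
  by_cases h : J = I
  · subst h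
    rwa [Pi.single_eq_same]
  · rw [Pi.single_eq_of_ne h]
    exact zero_mem _

theorem dk_in0 : in0 M ∈ Dk G (lamG G) 0 := fun a v hv =>
  single_lam 0 (mem_of_eq hv (by simp [lv]))

theorem dk_proj (I : Fin 8) :
    (LinearMap.proj I : Lam M →ₗ[A3] M) ∈ Dk (lamG G) G (-lv I) := fun a v hv =>
  mem_of_eq (hv I) (by ring)

variable {Mx : Matrix (Fin 4) (Fin 4) A3}

theorem dk_LL (hM : FB Mx) (hG : IsGr G) (i : Fin 3) : LL M Mx i ∈ Dk (lamG G) (lamG G) 1 :=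
  add_mem (dk_mat (wI_lv i)) (Submodule.sum_mem _ fun j _ =>
    dk_smul (isGr_lam hG) (hM.h2 i j) (dk_mat (cI_lv j)) (by norm_num))

theorem dk_rho (hM : FB Mx) (hG : IsGr G) {a : Fin 3 → Module.End A3 M}
    (ha : ∀ i, a i ∈ Dk G G 1) (I : Fin 8) : rho (m3 Mx) a I ∈ Dk G G (lv I) := by
  have h1 : (1 : Module.End A3 M) ∈ Dk G G 0 := dk_id
  have h2 : ∀ i j, a i * a j - m3 Mx i j • 1 ∈ Dk G G 2 := fun i j =>
    sub_mem (dk_comp (ha i) (ha j) (by norm_num)) (dk_smul hG (hM.h2 i j) h1 (by norm_num))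
  have h3 : ∀ i j l, m3 Mx i j • a l ∈ Dk G G 3 := fun i j l =>
    dk_smul hG (hM.h2 i j) (ha l) (by norm_num)
  have h4 : a 0 * (a 1 * a 2) ∈ Dk G G 3 :=
    dk_comp (ha 0) (dk_comp (ha 1) (ha 2) rfl) (by norm_num)
  fin_cases I
  exacts [h1, ha 0, ha 1, h2 0 1, ha 2, h2 0 2, h2 1 2,
    sub_mem (add_mem (sub_mem h4 (h3 0 1 2)) (h3 0 2 1)) (h3 1 2 0)]

theorem dk_extn (hM : FB Mx) (hG : IsGr G') {a : Fin 3 → Module.End A3 M'}
    (ha : ∀ i, a i ∈ Dk G' G' 1) {k : ℤ} {φ : M →ₗ[A3] M'} (hφ : φ ∈ Dk G G' k) :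
    extn Mx a φ ∈ Dk (lamG G) G' k :=
  Submodule.sum_mem _ fun I _ =>
    dk_comp (dk_rho hM hG ha I) (dk_comp hφ (dk_proj I) rfl) (by ring)

variable (Mx) in
/-- the extension as an `s`-linear map -/
noncomputable def exs (s : ℤ) (φ : M →ₗ[A3] Lam M') : Lam M →ₗ[A3] Lam M' :=
  extn Mx (fun i => s • LL M' Mx i) φ

theorem exs_in0 (s : ℤ) (φ : M →ₗ[A3] Lam M') : exs Mx s φ ∘ₗ in0 M = φ := extn_in0 _ _ _

theorem exs_LL (hM : Mx.IsSymm) {s : ℤ} (hs : s * s = 1) (φ : M →ₗ[A3] Lam M') (i : Fin 3) :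
    exs Mx s φ ∘ₗ LL M Mx i = s • (LL M' Mx i ∘ₗ exs Mx s φ) := by
  rw [← LinearMap.smul_comp]
  refine extn_LL Mx hM _ (fun i j => ?_) φ i
  rw [smul_mul_smul_comm, smul_mul_smul_comm, hs, one_smul, one_smul, LL_anti Mx hM]

theorem pp_exs (hM : FB Mx) (hG : IsGr G') {s : ℤ} (hs : s * s = 1) {k : ℤ}
    {φ : M →ₗ[A3] Lam M'} (hφ : φ ∈ Dk G (lamG G') k) : exs Mx s φ ∈ PP Mx s G G' k :=
  ⟨dk_extn hM (isGr_lam hG) (fun i => zsmul_mem (dk_LL hM hG i) s) hφ, exs_LL hM.symm hs φ⟩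

theorem lin_ext {s : ℤ} {f g : Lam M →ₗ[A3] Lam M'}
    (hf : ∀ i, f ∘ₗ LL M Mx i = s • (LL M' Mx i ∘ₗ f))
    (hg : ∀ i, g ∘ₗ LL M Mx i = s • (LL M' Mx i ∘ₗ g)) (h : f ∘ₗ in0 M = g ∘ₗ in0 M) : f = g :=
  ext_in0 Mx (fun i => s • LL M' Mx i) hf hg h

/-- **the universal property** -/
noncomputable def ppEquiv (hM : FB Mx) (hG : IsGr G') {s : ℤ} (hs : s * s = 1) (k : ℤ) :
    PP Mx s G G' k ≃ₗ[ℂ] Dk G (lamG G') k where
  toFun f := ⟨f.1 ∘ₗ in0 M, dk_comp f.2.1 dk_in0 (zero_add k).symm⟩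
  map_add' _ _ := rfl
  map_smul' _ _ := rfl
  invFun φ := ⟨exs Mx s φ.1, pp_exs hM hG hs φ.2⟩
  left_inv f := Subtype.ext (lin_ext (exs_LL hM.symm hs _) f.2.2 (exs_in0 _ _))
  right_inv φ := Subtype.ext (exs_in0 _ _)

theorem pp_of_eq {s s' k l : ℤ} {f : Lam M →ₗ[A3] Lam M'} (h : f ∈ PP Mx s G G' k) (e : s = s')
    (e' : k = l) : f ∈ PP Mx s' G G' l := e ▸ e' ▸ h

theorem pp_comp {s s' s'' k l m : ℤ} {f : Lam M →ₗ[A3] Lam M'} {g : Lam M' →ₗ[A3] Lam M''}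
    (hg : g ∈ PP Mx s' G' G'' l) (hf : f ∈ PP Mx s G G' k) (e : s'' = s * s') (e' : m = k + l) :
    g ∘ₗ f ∈ PP Mx s'' G G'' m := by
  refine ⟨dk_comp hg.1 hf.1 e', fun i => ?_⟩
  rw [LinearMap.comp_assoc, hf.2, LinearMap.comp_smul, ← LinearMap.comp_assoc, hg.2,
    LinearMap.smul_comp, smul_smul, e, LinearMap.comp_assoc]

theorem pp_id : (LinearMap.id : Lam M →ₗ[A3] Lam M) ∈ PP Mx 1 G G 0 :=
  ⟨dk_id, fun i => by rw [one_smul]; rfl⟩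

theorem pp_cw {k : ℤ} {g : M →ₗ[A3] M'} (hg : g ∈ Dk G G' k) : cw g ∈ PP Mx 1 G G' k :=
  ⟨dk_cw hg, fun i => by rw [one_smul, cw_LL]⟩

theorem pp_eps : mat M eI ∈ PP Mx (-1) G G 0 :=
  ⟨dk_mat eI_lv, fun i => by
    rw [neg_smul, one_smul]
    exact eq_neg_of_add_eq_zero_left (eps_LL Mx i)⟩

theorem pp_ecw {k : ℤ} {g : M →ₗ[A3] M'} (hg : g ∈ Dk G G' k) :
    mat M' eI ∘ₗ cw g ∈ PP Mx (-1) G G' k := pp_comp pp_eps (pp_cw hg) rfl (add_zero k).symm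

variable {N : LM Mx G} {N' : LM Mx G'} {N'' : LM Mx G''}

/-- the differential of the complex of homomorphisms -/
theorem pp_d (N : LM Mx G) (N' : LM Mx G') {s k : ℤ} (hs : s * s = 1) {f : Lam M →ₗ[A3] Lam M'}
    (hf : f ∈ PP Mx s G G' k) : N'.E ∘ₗ f - s • (f ∘ₗ N.E) ∈ PP Mx (-s) G G' (k + 3) := by
  refine ⟨sub_mem (dk_comp N'.deg hf.1 rfl) (zsmul_mem (dk_comp hf.1 N.deg (add_comm _ _)) _),
    fun i => LinearMap.ext fun v => ?_⟩
  have h1 : ∀ v, f (LL M Mx i v) = s • LL M' Mx i (f v) := fun v => LinearMap.congr_fun (hf.2 i) v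
  have h2 : N.E (LL M Mx i v) = (2 * Mx i.castSucc 3) • v - LL M Mx i (N.E v) :=
    eq_sub_of_add_eq (LinearMap.congr_fun (N.anti i) v)
  have h3 : N'.E (LL M' Mx i (f v)) = (2 * Mx i.castSucc 3) • f v - LL M' Mx i (N'.E (f v)) :=
    eq_sub_of_add_eq (LinearMap.congr_fun (N'.anti i) (f v))
  simp only [LinearMap.comp_apply, LinearMap.sub_apply, LinearMap.smul_apply, h1, h2, map_zsmul, h3,
    map_sub, map_smul, smul_sub, smul_smul, hs, neg_mul, neg_smul, one_smul, LinearMap.neg_apply]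
  abel

theorem dd_zero (N : LM Mx G) (N' : LM Mx G') (s : ℤ) (f : Lam M →ₗ[A3] Lam M') :
    N'.E ∘ₗ (N'.E ∘ₗ f - s • (f ∘ₗ N.E)) - (-s) • ((N'.E ∘ₗ f - s • (f ∘ₗ N.E)) ∘ₗ N.E) =
      (1 - s * s) • Mx 3 3 • f := by
  refine LinearMap.ext fun v => ?_
  have h2 : N.E (N.E v) = Mx 3 3 • v := LinearMap.congr_fun N.sq v
  have h3 : N'.E (N'.E (f v)) = Mx 3 3 • f v := LinearMap.congr_fun N'.sq (f v)
  simp only [LinearMap.comp_apply, LinearMap.sub_apply, LinearMap.smul_apply, h2, map_zsmul, h3,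
    map_sub, map_smul, smul_sub, sub_smul, mul_smul, neg_smul, one_smul, LinearMap.neg_apply]
  abel

theorem zc_comp {k l m : ℤ} {f : Lam M →ₗ[A3] Lam M'} {g : Lam M' →ₗ[A3] Lam M''}
    (hg : g ∈ ZC N' N'' l) (hf : f ∈ ZC N N' k) (e : m = k + l) : g ∘ₗ f ∈ ZC N N'' m :=
  ⟨pp_comp hg.1 hf.1 rfl e, by
    rw [← LinearMap.comp_assoc, hg.2, LinearMap.comp_assoc, hf.2, LinearMap.comp_assoc]⟩

theorem zc_bc {k l m : ℤ} {f : Lam M →ₗ[A3] Lam M'} {g : Lam M' →ₗ[A3] Lam M''}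
    (hg : g ∈ ZC N' N'' l) (hf : f ∈ BC N N' k) (e : m = k + l) : g ∘ₗ f ∈ BC N N'' m := by
  obtain ⟨h, h1, rfl⟩ := hf
  refine ⟨g ∘ₗ h, pp_comp hg.1 h1 rfl (by rw [e]; ring), ?_⟩
  rw [LinearMap.comp_add, ← LinearMap.comp_assoc, ← hg.2]
  rfl

theorem bc_zc {k l m : ℤ} {f : Lam M →ₗ[A3] Lam M'} {g : Lam M' →ₗ[A3] Lam M''}
    (hg : g ∈ BC N' N'' l) (hf : f ∈ ZC N N' k) (e : m = k + l) : g ∘ₗ f ∈ BC N N'' m := by
  obtain ⟨h, h1, rfl⟩ := hg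
  refine ⟨h ∘ₗ f, pp_comp h1 hf.1 rfl (by rw [e]; ring), ?_⟩
  rw [LinearMap.add_comp, LinearMap.comp_assoc f N'.E, hf.2]
  rfl

theorem bc_le (j : ℤ) : BC N N' j ≤ ZC N N' j := by
  rintro _ ⟨h, h1, rfl⟩
  have h2 := pp_d N N' (by norm_num) h1
  have h3 := dd_zero N N' (-1) h
  rw [neg_smul, one_smul, sub_neg_eq_add] at h2 h3
  refine ⟨pp_of_eq h2 (by norm_num) (by ring), sub_eq_zero.1 ?_⟩
  simpa using h3

/-- homotopy equivalent modules -/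
def HE (N : LM Mx G) (N' : LM Mx G') : Prop :=
  ∃ s ∈ ZC N N' 0, ∃ p ∈ ZC N' N 0, LinearMap.id - p ∘ₗ s ∈ BC N N 0 ∧
    LinearMap.id - s ∘ₗ p ∈ BC N' N' 0

theorem HE.trans (h : HE N N') (h' : HE N' N'') : HE N N'' := by
  obtain ⟨s, hs, p, hp, h1, h2⟩ := h
  obtain ⟨s', hs', p', hp', h1', h2'⟩ := h'
  refine ⟨s' ∘ₗ s, zc_comp hs' hs rfl, p ∘ₗ p', zc_comp hp hp' rfl, ?_, ?_⟩
  · have h3 := add_mem h1 (zc_bc hp (bc_zc h1' hs (m := 0) rfl) rfl)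
    rwa [LinearMap.sub_comp, LinearMap.comp_sub, LinearMap.id_comp, sub_add_sub_cancel] at h3
  · have h3 := add_mem h2' (zc_bc hs' (bc_zc h2 hp' (m := 0) rfl) rfl)
    rwa [LinearMap.sub_comp, LinearMap.comp_sub, LinearMap.id_comp, sub_add_sub_cancel] at h3

theorem hq_he {P P' : Type} [AddCommGroup P] [Module A3 P] [AddCommGroup P'] [Module A3 P']
    [Module ℂ P] [IsScalarTower ℂ A3 P] [Module ℂ P'] [IsScalarTower ℂ A3 P']
    {H : ℤ → Submodule ℂ P} {H' : ℤ → Submodule ℂ P'} {R : LM Mx H} {R' : LM Mx H'}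
    (h : HE N R) (h' : HE N' R') (j : ℤ) :
    Nonempty (HQ (ZC R R' j) (BC R R' j) ≃ₗ[ℂ] HQ (ZC N N' j) (BC N N' j)) := by
  obtain ⟨s, hs, p, hp, h1, h2⟩ := h
  obtain ⟨s', hs', p', hp', h1', h2'⟩ := h'
  let α : (Lam P →ₗ[A3] Lam P') →ₗ[ℂ] (Lam M →ₗ[A3] Lam M') :=
    { toFun := fun f => p' ∘ₗ f ∘ₗ s
      map_add' := fun f g => by rw [LinearMap.add_comp, LinearMap.comp_add]
      map_smul' := fun c f => by rw [LinearMap.smul_comp, LinearMap.comp_smul]; rfl }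
  have hα : ∀ f, α f = p' ∘ₗ f ∘ₗ s := fun _ => rfl
  refine hq_equiv α (fun f hf => zc_comp hp' (zc_comp hf hs (m := j) (by ring)) (by ring))
    (fun f hf => ⟨fun h3 => ?_,
      fun h3 => zc_bc hp' (bc_zc h3 hs (m := j) (by ring)) (by ring)⟩) (fun g hg => ?_)
  · have h4 := add_mem (add_mem (bc_zc h2' hf (m := j) (by ring))
      (zc_bc hs' (zc_bc hp' (zc_bc hf h2 (m := j) (by ring)) (m := j) (by ring)) (m := j)
        (by ring))) (zc_bc hs' (bc_zc h3 hp (m := j) (by ring)) (m := j) (by ring))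
    have h5 : (LinearMap.id - s' ∘ₗ p') ∘ₗ f + s' ∘ₗ p' ∘ₗ f ∘ₗ (LinearMap.id - s ∘ₗ p) +
        s' ∘ₗ α f ∘ₗ p = f := by
      refine LinearMap.ext fun v => ?_
      simp [hα]
    rwa [h5] at h4
  · refine ⟨s' ∘ₗ g ∘ₗ p, zc_comp hs' (zc_comp hg hp (m := j) (by ring)) (by ring), ?_⟩
    have h4 := add_mem (bc_zc h1' hg (m := j) (by ring))
      (zc_bc hp' (zc_bc hs' (zc_bc hg h1 (m := j) (by ring)) (m := j) (by ring)) (m := j) (by ring))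
    have h5 : (LinearMap.id - p' ∘ₗ s') ∘ₗ g + p' ∘ₗ s' ∘ₗ g ∘ₗ (LinearMap.id - p ∘ₗ s) =
        g - α (s' ∘ₗ g ∘ₗ p) := by
      refine LinearMap.ext fun v => ?_
      simp [hα]
    rwa [h5] at h4

end

end Vale.Agent.P287Z.T
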