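import Vale.Agent.P287Z.T.Lam2

/-!
# Graded linear algebra: a complex which is exact in large degrees (P287, block T2)
-/

set_option linter.unusedSectionVars false
set_option linter.unusedSimpArgs false
set_option linter.unusedVariables false

open MvPolynomial Module

namespace Vale.Agent.P287Z.T

section

variable {σ σ' V V' : Type} [AddCommGroup V] [Module ℂ V] [AddCommGroup V'] [Module ℂ V']

/-- the grading defined by a basis -/
def VG (e : Basis σ ℂ V) (g : σ → ℤ) (a : ℤ) : Submodule ℂ V where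
  carrier := {v | ∀ t, g t ≠ a → e.repr v t = 0}
  zero_mem' := fun t _ => by simp
  add_mem' := fun h h' t ht => by rw [map_add, Finsupp.add_apply, h t ht, h' t ht, add_zero]
  smul_mem' := fun c _ h t ht => by rw [map_smul, Finsupp.smul_apply, h t ht, smul_zero]

/-- linear maps of degree `k` -/
def DV (e : Basis σ ℂ V) (g : σ → ℤ) (e' : Basis σ' ℂ V') (g' : σ' → ℤ) (k : ℤ)
    (f : V →ₗ[ℂ] V') : Prop := ∀ a, ∀ v ∈ VG e g a, f v ∈ VG e' g' (a + k)

/-- the projection to the degree `a` -/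
noncomputable def pr (e : Basis σ ℂ V) (g : σ → ℤ) (a : ℤ) : V →ₗ[ℂ] V :=
  e.constr ℂ fun t => if g t = a then e t else 0

variable {e : Basis σ ℂ V} {g : σ → ℤ} {e' : Basis σ' ℂ V'} {g' : σ' → ℤ}

theorem pr_basis (a : ℤ) (t : σ) : pr e g a (e t) = if g t = a then e t else 0 :=
  e.constr_basis _ _ _

theorem repr_pr (a : ℤ) (v : V) (t : σ) :
    e.repr (pr e g a v) t = if g t = a then e.repr v t else 0 := by
  classical
  have h : e.coord t ∘ₗ pr e g a = if g t = a then e.coord t else 0 := by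
    refine e.ext fun t' => ?_
    rw [LinearMap.comp_apply, pr_basis]
    by_cases h : t' = t
    · subst h
      split_ifs <;> simp
    · split_ifs <;> simp [h]
  have h1 := LinearMap.congr_fun h v
  split_ifs at h1 ⊢ <;> simpa using h1

theorem pr_mem (a : ℤ) (v : V) : pr e g a v ∈ VG e g a := fun t ht => by
  rw [repr_pr, if_neg ht]

theorem pr_self {a : ℤ} {v : V} (hv : v ∈ VG e g a) : pr e g a v = v := by
  refine e.ext_elem fun t => ?_
  rw [repr_pr]
  split_ifs with h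
  · rfl
  · exact (hv t h).symm

theorem pr_ne {a b : ℤ} {v : V} (hv : v ∈ VG e g a) (h : a ≠ b) : pr e g b v = 0 := by
  refine e.ext_elem fun t => ?_
  rw [repr_pr, map_zero, Finsupp.zero_apply]
  split_ifs with h1
  · exact hv t (by rw [h1]; exact h.symm)
  · rfl

theorem basis_mem (t : σ) : e t ∈ VG e g (g t) := by
  classical
  intro t' h
  rw [e.repr_self, Finsupp.single_apply, if_neg]
  rintro rfl
  exact h rfl

theorem pr_comm {k : ℤ} {f : V →ₗ[ℂ] V'} (hf : DV e g e' g' k f) (a : ℤ) (v : V) :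
    f (pr e g a v) = pr e' g' (a + k) (f v) := by
  have h : f ∘ₗ pr e g a = pr e' g' (a + k) ∘ₗ f := by
    refine e.ext fun t => ?_
    rw [LinearMap.comp_apply, LinearMap.comp_apply, pr_basis]
    split_ifs with h
    · rw [← h, pr_self (hf _ _ (basis_mem t))]
    · rw [pr_ne (hf _ _ (basis_mem t)) (by omega), map_zero]
  exact LinearMap.congr_fun h v

theorem exists_cmp (e : Basis σ ℂ V) (g : σ → ℤ) (e' : Basis σ' ℂ V') (g' : σ' → ℤ) (k : ℤ)
    (φ : V →ₗ[ℂ] V') :
    ∃ ψ : V →ₗ[ℂ] V', ∀ a, ∀ v ∈ VG e g a, ψ v = pr e' g' (a + k) (φ v) := by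
  refine ⟨e.constr ℂ fun t => pr e' g' (g t + k) (φ (e t)), fun a v hv => ?_⟩
  have h : (e.constr ℂ fun t => pr e' g' (g t + k) (φ (e t))) ∘ₗ pr e g a =
      pr e' g' (a + k) ∘ₗ φ ∘ₗ pr e g a := by
    refine e.ext fun t => ?_
    simp only [LinearMap.comp_apply, pr_basis]
    split_ifs with h
    · rw [e.constr_basis, h]
    · simp
  simpa only [LinearMap.comp_apply, pr_self hv] using LinearMap.congr_fun h v

theorem vg_of_eq {a b : ℤ} {v : V} (h : v ∈ VG e g a) (hab : a = b) : v ∈ VG e g b := hab ▸ h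

theorem exists_eta {D : Module.End ℂ V} (hD : DV e g e g 3 D) (hDD : D * D = 0) :
    ∃ η : Module.End ℂ V, DV e g e g (-3) η ∧ η * η = 0 ∧ η * D * η = η ∧ D * η * D = D := by
  obtain ⟨s, hs⟩ := D.rangeRestrict.exists_rightInverse_of_surjective D.range_rangeRestrict
  obtain ⟨η', hη'⟩ := s.exists_extend
  have h1 : ∀ v, D (η' (D v)) = D v := fun v => by
    have h2 : η' (D v) = s (D.rangeRestrict v) := LinearMap.congr_fun hη' (D.rangeRestrict v)
    rw [h2]
    exact congrArg Subtype.val (LinearMap.congr_fun hs (D.rangeRestrict v))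
  obtain ⟨η₀, h0⟩ := exists_cmp e g e g (-3) η'
  have d0 : DV e g e g (-3) η₀ := fun a v hv => by
    rw [h0 a v hv]
    exact pr_mem _ _
  have h2 : D * η₀ * D = D := by
    refine e.ext fun t => ?_
    have h3 := hD _ _ (basis_mem t)
    rw [Module.End.mul_apply, Module.End.mul_apply, h0 _ _ h3, pr_comm hD, h1,
      pr_self (vg_of_eq h3 (by ring))]
  have h3 : ∀ x, D * (η₀ * (D * x)) = D * x := fun x => by
    rw [← mul_assoc, ← mul_assoc, h2]
  have h4 : ∀ x, D * (D * x) = 0 := fun x => by rw [← mul_assoc, hDD, zero_mul]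
  have h5 : D * (η₀ * D) = D := by rw [← mul_assoc, h2]
  refine ⟨η₀ * D * η₀ * (1 - η₀ * D * η₀ * D), fun a v hv => ?_, ?_, ?_, ?_⟩
  · have h6 : (1 - η₀ * D * η₀ * D) v ∈ VG e g a :=
      sub_mem hv (vg_of_eq (d0 _ _ (hD _ _ (d0 _ _ (hD _ _ hv)))) (by ring))
    exact vg_of_eq (d0 _ _ (hD _ _ (d0 _ _ h6))) (by ring)
  all_goals simp only [mul_sub, sub_mul, mul_assoc, mul_one, one_mul, h3, h4, h5, hDD, mul_zero,
    sub_zero, sub_self]

theorem min1 {D : Module.End ℂ V} (hD : DV e g e g 3 D) (hDD : D * D = 0) {a₀ : ℤ}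
    (hf : {t | g t < a₀}.Finite)
    (hx : ∀ a ≥ a₀, ∀ v ∈ VG e g a, D v = 0 → ∃ u, D u = v) :
    ∃ η : Module.End ℂ V, DV e g e g (-3) η ∧ η * η = 0 ∧ η * D * η = η ∧
      ∃ (r : ℕ) (g' : Fin r → ℤ) (ι : (Fin r → ℂ) →ₗ[ℂ] V) (ϖ : V →ₗ[ℂ] (Fin r → ℂ)),
        DV (Pi.basisFun ℂ (Fin r)) g' e g 0 ι ∧ DV e g (Pi.basisFun ℂ (Fin r)) g' 0 ϖ ∧
        ϖ ∘ₗ ι = LinearMap.id ∧ ι ∘ₗ ϖ = 1 - (D * η + η * D) := by
  obtain ⟨η, d1, h1, h2, h3⟩ := exists_eta hD hDD
  refine ⟨η, d1, h1, h2, ?_⟩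
  obtain ⟨π, hπ⟩ : ∃ π : Module.End ℂ V, π = 1 - (D * η + η * D) := ⟨_, rfl⟩
  have k1 : ∀ x, η * (η * x) = 0 := fun x => by rw [← mul_assoc, h1, zero_mul]
  have k2 : ∀ x, D * (D * x) = 0 := fun x => by rw [← mul_assoc, hDD, zero_mul]
  have k3 : η * (D * η) = η := by rw [← mul_assoc, h2]
  have k4 : D * (η * D) = D := by rw [← mul_assoc, h3]
  have pp : π * π = π := by
    simp only [hπ, mul_sub, sub_mul, mul_add, add_mul, mul_assoc, mul_one, one_mul, k1, k2, k3, k4,
      mul_zero, add_zero, zero_add, sub_self, sub_zero]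
  have dπ : ∀ a, ∀ v ∈ VG e g a, π v ∈ VG e g a := fun a v hv => by
    rw [hπ]
    exact sub_mem hv (add_mem (vg_of_eq (hD _ _ (d1 _ _ hv)) (by ring))
      (vg_of_eq (d1 _ _ (hD _ _ hv)) (by ring)))
  have p0 : ∀ t, a₀ ≤ g t → π (e t) = 0 := by
    intro t ht
    have h4 : (1 - η * D) (e t) ∈ VG e g (g t) :=
      sub_mem (basis_mem t) (vg_of_eq (d1 _ _ (hD _ _ (basis_mem t))) (by ring))
    obtain ⟨u, hu⟩ := hx _ ht _ h4 (by
      rw [← Module.End.mul_apply, mul_sub, mul_one, k4, sub_self, LinearMap.zero_apply])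
    have h5 : π = (1 - D * η) * (1 - η * D) := by
      simp only [hπ, mul_sub, sub_mul, mul_assoc, mul_one, one_mul, k1, mul_zero, sub_zero]
      abel
    rw [h5, Module.End.mul_apply, ← hu, ← Module.End.mul_apply, sub_mul, one_mul, h3, sub_self,
      LinearMap.zero_apply]
  obtain ⟨B, hB, hsp, hli⟩ := exists_linearIndependent ℂ ((fun t => π (e t)) '' {t | g t < a₀})
  have := ((hf.image _).subset hB).fintype
  let q : Fin (Fintype.card B) ≃ B := (Fintype.equivFin B).symm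
  choose τ hτ hτ' using fun i => hB (q i).2
  let ι : (Fin (Fintype.card B) → ℂ) →ₗ[ℂ] V := Fintype.linearCombination ℂ fun i => (q i : V)
  have hι : ∀ i, ι (Pi.basisFun ℂ _ i) = π (e (τ i)) := fun i => by
    simp [ι, hτ' i]
  have inj : Function.Injective ι :=
    (hli.comp q q.injective).fintypeLinearCombination_injective
  obtain ⟨l, hl⟩ := ι.exists_leftInverse_of_injective (LinearMap.ker_eq_bot.2 inj)
  have hr : ∀ v, π v ∈ LinearMap.range ι := by
    have h4 : LinearMap.range ι = Submodule.span ℂ B := by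
      rw [Fintype.range_linearCombination]
      congr 1
      ext x
      exact ⟨by rintro ⟨i, rfl⟩; exact (q i).2, fun hx => ⟨q.symm ⟨x, hx⟩, by simp⟩⟩
    intro v
    have h5 : (⊤ : Submodule ℂ V) ≤ (LinearMap.range ι).comap π := by
      rw [← e.span_eq, Submodule.span_le]
      rintro _ ⟨t, rfl⟩
      change π (e t) ∈ LinearMap.range ι
      by_cases ht : g t < a₀
      · rw [h4, hsp]
        exact Submodule.subset_span ⟨t, ht, rfl⟩
      · rw [p0 t (not_lt.1 ht)]
        exact zero_mem _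
    exact h5 trivial
  have a1 : ∀ v, ι (l (π v)) = π v := fun v => by
    obtain ⟨c, hc⟩ := hr v
    rw [← hc]
    exact congrArg ι (LinearMap.congr_fun hl c)
  have a2 : π ∘ₗ ι = ι := by
    refine (Pi.basisFun ℂ _).ext fun i => ?_
    rw [LinearMap.comp_apply, hι, ← Module.End.mul_apply, pp]
  have dι : DV (Pi.basisFun ℂ _) (fun i => g (τ i)) e g 0 ι := by
    intro a v hv
    rw [← (Pi.basisFun ℂ _).sum_repr v, map_sum]
    refine Submodule.sum_mem _ fun i _ => ?_
    by_cases h : g (τ i) = a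
    · rw [map_smul, hι]
      exact Submodule.smul_mem _ _ (vg_of_eq (dπ _ _ (basis_mem _)) (by rw [h, add_zero]))
    · rw [hv i h, zero_smul, map_zero]
      exact zero_mem _
  refine ⟨_, fun i => g (τ i), ι, l ∘ₗ π, dι, fun a v hv => ?_, ?_, ?_⟩
  · have h4 : pr (Pi.basisFun ℂ _) (fun i => g (τ i)) a (l (π v)) = l (π v) := by
      apply inj
      rw [pr_comm dι, a1, add_zero, pr_self (dπ _ _ hv)]
    rw [LinearMap.comp_apply, ← h4, add_zero]
    exact pr_mem _ _
  · rw [LinearMap.comp_assoc, a2, hl]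
  · rw [← hπ]
    exact LinearMap.ext a1

end

end Vale.Agent.P287Z.T
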