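import Vale.Agent.P287Z.T.Min1

/-!
# Removing a contractible summand (P287, block T2)
-/

set_option linter.unusedSectionVars false
set_option linter.unusedSimpArgs false
set_option linter.unusedVariables false

open MvPolynomial Module

namespace Vale.Agent.P287Z.T

open O.V

section

variable {M M' : Type} [AddCommGroup M] [Module A3 M] [AddCommGroup M'] [Module A3 M']
  [Module ℂ M] [IsScalarTower ℂ A3 M] [Module ℂ M'] [IsScalarTower ℂ A3 M']
  {G : ℤ → Submodule ℂ M} {G' : ℤ → Submodule ℂ M'} {Mx : Matrix (Fin 4) (Fin 4) A3}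

theorem cw_in0 (g : M →ₗ[A3] M') (x : M) : cw g (in0 M x) = in0 M' (g x) := by
  funext I
  rw [cw_apply, in0_apply, in0_apply]
  exact Pi.apply_single (fun _ => g) (fun _ => map_zero g) 0 x I

theorem eps_in0 (x : M) : mat M eI (in0 M x) = in0 M x := by
  rw [in0_apply, mat_single, Finset.sum_eq_single 0]
  · rw [eI_col, if_pos rfl, one_smul]
  · intro J _ hJ
    rw [eI_col, if_neg hJ, zero_smul]
  · intro h
    exact absurd (Finset.mem_univ _) h

theorem zc_id (N : LM Mx G) : LinearMap.id ∈ ZC N N 0 := ⟨pp_id, rfl⟩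

/-- the structure transported along a retraction -/
noncomputable def LM.tr (N : LM Mx G) {i : Lam M' →ₗ[A3] Lam M} {p : Lam M →ₗ[A3] Lam M'}
    (hi : i ∈ PP Mx 1 G' G 0) (hp : p ∈ PP Mx 1 G G' 0) (h : p ∘ₗ i = LinearMap.id)
    (hE : p ∘ₗ N.E ∘ₗ i ∘ₗ p = p ∘ₗ N.E) : LM Mx G' where
  E := p ∘ₗ N.E ∘ₗ i
  deg := dk_comp hp.1 (dk_comp N.deg hi.1 rfl) (by norm_num)
  anti j := by
    refine LinearMap.ext fun v => ?_
    have h1 : i (LL M' Mx j v) = LL M Mx j (i v) := by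
      simpa using LinearMap.congr_fun (hi.2 j) v
    have h2 : ∀ v, p (LL M Mx j v) = LL M' Mx j (p v) := fun v => by
      simpa using LinearMap.congr_fun (hp.2 j) v
    have h3 : N.E (LL M Mx j (i v)) + LL M Mx j (N.E (i v)) = (2 * Mx j.castSucc 3) • i v :=
      LinearMap.congr_fun (N.anti j) (i v)
    have h4 : p (i v) = v := LinearMap.congr_fun h v
    change p (N.E (i (LL M' Mx j v))) + LL M' Mx j (p (N.E (i v))) = (2 * Mx j.castSucc 3) • v
    rw [h1, ← h2, ← map_add, h3, map_smul, h4]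
  sq := by
    refine LinearMap.ext fun v => ?_
    have h1 : p (N.E (i (p (N.E (i v))))) = p (N.E (N.E (i v))) := LinearMap.congr_fun hE _
    have h3 : N.E (N.E (i v)) = Mx 3 3 • i v := LinearMap.congr_fun N.sq (i v)
    have h4 : p (i v) = v := LinearMap.congr_fun h v
    change p (N.E (i (p (N.E (i v))))) = Mx 3 3 • v
    rw [h1, h3, map_smul, h4]

theorem he_conj (N : LM Mx G) {T T' : Lam M →ₗ[A3] Lam M} (hT : T ∈ PP Mx 1 G G 0)
    (hT' : T' ∈ PP Mx 1 G G 0) (h : T' ∘ₗ T = LinearMap.id) (h' : T ∘ₗ T' = LinearMap.id) :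
    ∃ N' : LM Mx G, N'.E = T' ∘ₗ N.E ∘ₗ T ∧ HE N' N := by
  have hE : T' ∘ₗ N.E ∘ₗ T ∘ₗ T' = T' ∘ₗ N.E := by rw [h', LinearMap.comp_id]
  refine ⟨N.tr hT hT' h hE, rfl, T, ⟨hT, ?_⟩, T', ⟨hT', hE⟩, ?_, ?_⟩
  · change N.E ∘ₗ T = (T ∘ₗ T') ∘ₗ N.E ∘ₗ T
    rw [h', LinearMap.id_comp]
  · rw [h, sub_self]
    exact zero_mem _
  · rw [h', sub_self]
    exact zero_mem _

theorem he_core (N : LM Mx G) {D η : Module.End A3 M} {ι : M' →ₗ[A3] M} {ϖ : M →ₗ[A3] M'}
    (dD : D ∈ Dk G G 3) (dη : η ∈ Dk G G (-3)) (dι : ι ∈ Dk G' G 0) (dϖ : ϖ ∈ Dk G G' 0)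
    (hD : D * D = 0) (h1 : η * η = 0) (h2 : η * D * η = η) (h3 : ϖ ∘ₗ ι = LinearMap.id)
    (h4 : ι ∘ₗ ϖ = 1 - (D * η + η * D)) (hE : ∀ x, N.E (in0 M (η x)) = in0 M (D (η x))) :
    ∃ N' : LM Mx G', HE N' N := by
  have e0 : ∀ x, D (D x) = 0 := LinearMap.congr_fun hD
  have e1 : ∀ x, η (η x) = 0 := LinearMap.congr_fun h1
  have e2 : ∀ x, η (D (η x)) = η x := LinearMap.congr_fun h2
  have e3 : ∀ x, ϖ (ι x) = x := LinearMap.congr_fun h3
  have e4 : ∀ x, ι (ϖ x) = x - (D (η x) + η (D x)) := LinearMap.congr_fun h4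
  have e5 : ∀ x, ϖ (η x) = 0 := fun x => by
    rw [← e3 (ϖ (η x)), e4, e1, e2, map_zero, zero_add, sub_self, map_zero]
  have e6 : ∀ x, ϖ (D (η x)) = 0 := fun x => by
    rw [← e3 (ϖ (D (η x))), e4, e0, e2, map_zero, add_zero, sub_self, map_zero]
  have e7 : ∀ x, η (ι x) = 0 := fun x => by
    rw [← e3 x, e4, map_sub, map_add, e2, e1, add_zero, sub_self]
  have e8 : ∀ x, N.E (in0 M (D (η x))) = Mx 3 3 • in0 M (η x) := fun x => by
    rw [← hE]
    exact LinearMap.congr_fun N.sq _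
  obtain ⟨κ, hκ⟩ : ∃ κ : Module.End A3 M, κ = D * η + η * D := ⟨_, rfl⟩
  have e9 : ∀ x, κ x = D (η x) + η (D x) := LinearMap.congr_fun hκ
  have dκ : κ ∈ Dk G G 0 := hκ ▸ add_mem (dk_comp dD dη (by norm_num)) (dk_comp dη dD (by norm_num))
  have f1 : ∀ v, cw ι (cw ϖ v) = v - cw κ v := fun v => funext fun I => by
    rw [cw_apply, cw_apply, e4, Pi.sub_apply, cw_apply, e9]
  have f2 : ∀ v, cw ϖ (cw κ v) = 0 := fun v => funext fun I => by
    rw [cw_apply, cw_apply, e9, map_add, e5, e6, add_zero, Pi.zero_apply]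
  have A : cw ϖ ∘ₗ N.E ∘ₗ cw κ = 0 := by
    refine lin_ext (Mx := Mx) (s := -1) (fun j => LinearMap.ext fun v => ?_) (fun j => by simp)
      (LinearMap.ext fun x => ?_)
    · have a1 : cw κ (LL M Mx j v) = LL M Mx j (cw κ v) := LinearMap.congr_fun (cw_LL Mx κ j) v
      have a2 : ∀ v, cw ϖ (LL M Mx j v) = LL M' Mx j (cw ϖ v) :=
        LinearMap.congr_fun (cw_LL Mx ϖ j)
      have a3 : N.E (LL M Mx j (cw κ v)) =
          (2 * Mx j.castSucc 3) • cw κ v - LL M Mx j (N.E (cw κ v)) :=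
        eq_sub_of_add_eq (LinearMap.congr_fun (N.anti j) _)
      simp only [LinearMap.comp_apply, a1, a3, map_sub, map_smul, f2, a2, smul_zero, zero_sub,
        neg_smul, one_smul, LinearMap.neg_apply]
    · simp only [LinearMap.comp_apply, cw_in0, e9, map_add, e8, hE, map_smul, e5, e6, map_zero,
        smul_zero, add_zero, LinearMap.zero_apply]
  have A' : ∀ v, cw ϖ (N.E (cw ι (cw ϖ v))) = cw ϖ (N.E v) := fun v => by
    have a1 : cw ϖ (N.E (cw κ v)) = 0 := LinearMap.congr_fun A v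
    rw [f1, map_sub, map_sub, a1, sub_zero]
  have hpi : cw ϖ ∘ₗ cw ι = LinearMap.id := by rw [← cw_comp, h3, cw_id]
  let N' : LM Mx G' := N.tr (pp_cw dι) (pp_cw dϖ) hpi (LinearMap.ext A')
  have hN' : ∀ v, N'.E v = cw ϖ (N.E (cw ι v)) := fun _ => rfl
  obtain ⟨h, hh⟩ : ∃ h : Lam M →ₗ[A3] Lam M, h = mat M eI ∘ₗ cw η := ⟨_, rfl⟩
  have g1 : ∀ x, h (in0 M x) = in0 M (η x) := fun x => by
    rw [hh, LinearMap.comp_apply, cw_in0, eps_in0]
  have g2 : ∀ v, h (cw ι v) = 0 := fun v => by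
    have a1 : cw η (cw ι v) = 0 := funext fun I => e7 _
    rw [hh, LinearMap.comp_apply, a1, map_zero]
  have g3 : ∀ v, cw ϖ (h v) = 0 := fun v => by
    have a1 : cw ϖ (cw η v) = 0 := funext fun I => e5 _
    have a2 : cw ϖ (mat M eI (cw η v)) = mat M' eI (cw ϖ (cw η v)) :=
      LinearMap.congr_fun (cw_mat ϖ eI) _
    rw [hh, LinearMap.comp_apply, a2, a1, map_zero]
  obtain ⟨Q, hQ⟩ : ∃ Q : Lam M →ₗ[A3] Lam M, Q = N.E ∘ₗ h + h ∘ₗ N.E := ⟨_, rfl⟩
  have bQ : Q ∈ BC N N 0 := ⟨h, hh ▸ pp_ecw dη, hQ⟩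
  have zQ := bc_le _ bQ
  have q1 : ∀ v, Q v = N.E (h v) + h (N.E v) := LinearMap.congr_fun hQ
  have B : Q ∘ₗ cw κ = cw κ := by
    refine lin_ext (Mx := Mx) (s := 1) (pp_comp zQ.1 (pp_cw dκ) rfl (m := 0) rfl).2 (pp_cw dκ).2
      (LinearMap.ext fun x => ?_)
    simp only [LinearMap.comp_apply, cw_in0, e9, map_add, q1, g1, e8, hE, map_smul, e1, e2,
      map_zero, smul_zero, add_zero, zero_add]
  have B' : ∀ v, cw ι (cw ϖ v) - Q (cw ι (cw ϖ v)) = v - Q v := fun v => by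
    have a1 : Q (cw κ v) = cw κ v := LinearMap.congr_fun B v
    rw [f1, map_sub, a1]
    abel
  have q2 : ∀ v, N.E (Q v) = Q (N.E v) := LinearMap.congr_fun zQ.2
  refine ⟨N', (LinearMap.id - Q) ∘ₗ cw ι, ⟨pp_comp (sub_mem pp_id zQ.1) (pp_cw dι) rfl rfl,
    LinearMap.ext fun v => ?_⟩, cw ϖ, ⟨pp_cw dϖ, LinearMap.ext A'⟩, ?_, ?_⟩
  · simp only [LinearMap.comp_apply, LinearMap.sub_apply, LinearMap.id_apply, hN', B', map_sub, q2]
  · have a1 : LinearMap.id - cw ϖ ∘ₗ (LinearMap.id - Q) ∘ₗ cw ι = 0 := by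
      refine LinearMap.ext fun v => ?_
      have a2 : cw ϖ (cw ι v) = v := LinearMap.congr_fun hpi v
      simp only [LinearMap.comp_apply, LinearMap.sub_apply, LinearMap.id_apply, map_sub, q1, g2,
        map_add, g3, map_zero, a2, add_zero, sub_zero, sub_self, LinearMap.zero_apply]
    rw [a1]
    exact zero_mem _
  · have a1 : LinearMap.id - ((LinearMap.id - Q) ∘ₗ cw ι) ∘ₗ cw ϖ = Q := by
      refine LinearMap.ext fun v => ?_
      simp only [LinearMap.comp_apply, LinearMap.sub_apply, LinearMap.id_apply, B', sub_sub_cancel]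
    rw [a1]
    exact bQ

theorem exists_inv {ν : Module.End A3 (Lam M)} (hν : ν ∈ PP Mx 1 G G 0)
    (hn : ∀ v, ∃ n : ℕ, (ν ^ n) v = 0) :
    ∃ T' ∈ PP Mx 1 G G 0, T' ∘ₗ (1 - ν) = LinearMap.id ∧ (1 - ν) ∘ₗ T' = LinearMap.id := by
  have h1 : ∀ v, ∃ u, (1 - ν) u = v ∧ ∀ a, v ∈ lamG G a → u ∈ lamG G a := by
    intro v
    obtain ⟨n, h⟩ := hn v
    refine ⟨(∑ j ∈ Finset.range n, ν ^ j) v, ?_, fun a ha => ?_⟩
    · rw [← Module.End.mul_apply, mul_neg_geom_sum, LinearMap.sub_apply, h, sub_zero]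
      rfl
    · rw [LinearMap.sum_apply]
      refine Submodule.sum_mem _ fun j hj => ?_
      clear hj
      induction j with
      | zero => exact ha
      | succ j ih =>
        rw [pow_succ', Module.End.mul_apply]
        exact mem_of_eq (hν.1 _ _ ih) (add_zero a)
  have h2 : Function.Injective (1 - ν : Module.End A3 (Lam M)) := by
    rw [injective_iff_map_eq_zero]
    intro v hv
    have h3 : ν v = v := (sub_eq_zero.1 hv).symm
    obtain ⟨n, h⟩ := hn v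
    rw [← h]
    clear h
    induction n with
    | zero => rfl
    | succ n ih => rw [pow_succ, Module.End.mul_apply, h3, ← ih]
  let T := LinearEquiv.ofBijective (1 - ν) ⟨h2, fun v => (h1 v).imp fun _ h => h.1⟩
  have h3 : ∀ v, (1 - ν) (T.symm v) = v := T.apply_symm_apply
  have h4 : ∀ v, T.symm ((1 - ν) v) = v := T.symm_apply_apply
  refine ⟨T.symm.toLinearMap, ⟨fun a v hv => ?_, fun i => LinearMap.ext fun v => ?_⟩,
    LinearMap.ext h4, LinearMap.ext h3⟩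
  · obtain ⟨u, rfl, hu⟩ := h1 v
    rw [LinearEquiv.coe_coe, h4, add_zero]
    exact hu a hv
  · have h5 : ∀ v, (1 - ν) (LL M Mx i v) = LL M Mx i ((1 - ν) v) := fun v => by
      simpa using LinearMap.congr_fun ((sub_mem pp_id hν).2 i) v
    apply h2
    rw [one_smul]
    change (1 - ν) (T.symm (LL M Mx i v)) = (1 - ν) (LL M Mx i (T.symm v))
    rw [h3, h5, h3]

end

end Vale.Agent.P287Z.T
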