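import Vale.Agent.P287Z.T.Kos
import Vale.Agent.P287Z.T.Min2

/-!
# The Clifford module of a matrix factorization and its homomorphisms (P287, block T2)
-/

set_option linter.unusedSectionVars false
set_option linter.unusedSimpArgs false
set_option linter.unusedVariables false

open MvPolynomial

namespace Vale.Agent.P287Z.T

open O.V

/-- `A[y₀,y₁,y₂]` -/
abbrev SA : Type := MvPolynomial (Fin 3) A3

/-- the cubic form as a polynomial in `y` -/
noncomputable def FS (Mx : Matrix (Fin 4) (Fin 4) A3) : SA :=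
  ∑ i : Fin 3, ∑ j : Fin 3, C (Mx i.castSucc j.castSucc) * X i * X j +
    2 * ∑ i : Fin 3, C (Mx i.castSucc 3) * X i + C (Mx 3 3)

/-- the cofactors -/
noncomputable def gj (Mx : Matrix (Fin 4) (Fin 4) A3) (j : Fin 3) : SA :=
  C (2 * Mx j.castSucc 3) + ∑ i : Fin 3, C (Mx i.castSucc j.castSucc) * X i

section

variable (M : Type) [AddCommGroup M] [Module A3 M] [Module SA M] [IsScalarTower A3 SA M]

/-- the action of `A[y]` -/
noncomputable def sm : SA →+* Module.End A3 M := Module.toModuleEnd A3 M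

/-- the Koszul part of the action of `e₃` -/
noncomputable def KX (Mx : Matrix (Fin 4) (Fin 4) A3) : Module.End A3 (Lam M) :=
  KK (sm (Lam M)) (mat M) (fun i => -X i) (gj Mx)

variable {M} {M' : Type} [AddCommGroup M'] [Module A3 M'] [Module SA M'] [IsScalarTower A3 SA M']
  {Mx : Matrix (Fin 4) (Fin 4) A3}

theorem sm_apply (r : SA) (m : M) : sm M r m = r • m := rfl

theorem sm_C (r : A3) : sm M (C r) = r • 1 := LinearMap.ext fun m => algebraMap_smul SA r m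

theorem mat_smul (K : Matrix (Fin 8) (Fin 8) ℤ) (r : SA) (v : Lam M) :
    mat M K (r • v) = r • mat M K v := by
  funext I
  simp only [mat_apply, Pi.smul_apply, Finset.smul_sum, smul_comm r]

theorem mat_sm (K : Matrix (Fin 8) (Fin 8) ℤ) (r : SA) :
    mat M K * sm (Lam M) r = sm (Lam M) r * mat M K := LinearMap.ext (mat_smul K r)

theorem LL_eq' (i : Fin 3) : LL M Mx i = KK (sm (Lam M)) (mat M)
    (fun j => if i = j then 1 else 0) (fun j => C (Mx i.castSucc j.castSucc)) := by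
  rw [LL, KK]
  congr 1
  · rw [Finset.sum_eq_single i]
    · rw [if_pos rfl, map_one, one_mul]
    · intro j _ hj
      rw [if_neg hj.symm, map_zero, zero_mul]
    · intro h
      exact absurd (Finset.mem_univ i) h
  · exact Finset.sum_congr rfl fun j _ => by rw [sm_C, smul_mul_assoc, one_mul]

theorem KX_apply (v : Lam M) : KX M Mx v =
    -∑ i, mat M (wI i) ((X i : SA) • v) + ∑ j, gj Mx j • mat M (cI j) v := by
  simp only [KX, KK, LinearMap.add_apply, LinearMap.sum_apply, Module.End.mul_apply, sm_apply,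
    mat_smul, neg_smul, Finset.sum_neg_distrib]

theorem cw_KX (h : M →ₗ[A3] M') (hh : ∀ (r : SA) m, h (r • m) = r • h m) (v : Lam M) :
    cw h (KX M Mx v) = KX M' Mx (cw h v) := by
  have h1 : ∀ K v, cw h (mat M K v) = mat M' K (cw h v) := fun K =>
    LinearMap.congr_fun (cw_mat h K)
  have h2 : ∀ (r : SA) v, cw h (r • v) = r • cw h v := fun r v => funext fun I => hh r _
  simp only [KX_apply, map_add, map_neg, map_sum, h1, h2]

theorem eps_KX (v : Lam M) : mat M eI (KX M Mx v) = -KX M Mx (mat M eI v) :=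
  eq_neg_of_add_eq_zero_left (LinearMap.congr_fun (KK_eps _ _ mat_sm _ _) v)

theorem KX_LL (hM : Mx.IsSymm) (i : Fin 3) :
    KX M Mx * LL M Mx i + LL M Mx i * KX M Mx = (2 * Mx i.castSucc 3) • 1 := by
  rw [LL_eq', KX, KK_anti _ _ mat_sm, ← sm_C]
  congr 1
  simp only [mul_ite, mul_one, mul_zero, Finset.sum_add_distrib, Finset.sum_ite_eq,
    Finset.mem_univ, if_true, gj, fun j : Fin 3 => hM.apply i.castSucc j.castSucc]
  simp only [Fin.sum_univ_three]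
  ring

theorem KX_KX : KX M Mx * KX M Mx + KX M Mx * KX M Mx =
    sm (Lam M) (C (2 * Mx 3 3) - 2 * FS Mx) := by
  rw [KX, KK_anti _ _ mat_sm]
  congr 1
  simp only [gj, FS, Fin.sum_univ_three, map_mul, map_ofNat]
  ring

theorem mat_in0 {K : Matrix (Fin 8) (Fin 8) ℤ} (h : ∀ J, K J 0 = 0) (x : M) :
    mat M K (in0 M x) = 0 := by
  rw [in0_apply, mat_single]
  exact Finset.sum_eq_zero fun J _ => by rw [h, zero_smul]

theorem cI_col : ∀ j J, cI j J 0 = 0 := by decide +kernel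

omit [Module SA M] [IsScalarTower A3 SA M] in
theorem fil_mono {t t' : ℤ} (h : t ≤ t') {v : Lam M} (hv : v ∈ Fil M t) : v ∈ Fil M t' :=
  fun I hI => hv I (h.trans_lt hI)

theorem fil_mat {K : Matrix (Fin 8) (Fin 8) ℤ} {d : ℤ} (h : ∀ I J, K I J = 0 ∨ lv I = lv J + d)
    (hd : d ≤ 0) {t : ℤ} {v : Lam M} (hv : v ∈ Fil M t) : mat M K v ∈ Fil M t := by
  intro I hI
  rw [mat_apply]
  refine Finset.sum_eq_zero fun J _ => ?_
  rcases h I J with h1 | h1
  · rw [h1, zero_smul]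
  · rw [hv J (by omega), smul_zero]

variable [Module ℂ M] [IsScalarTower ℂ A3 M] [Module ℂ M'] [IsScalarTower ℂ A3 M']

variable (Mx) in
/-- graded matrix factorizations over `A[y]` -/
structure XD (G : ℤ → Submodule ℂ M) where
  D : Module.End A3 M
  lin : ∀ (r : SA) m, D (r • m) = r • D m
  deg : D ∈ Dk G G 3
  sq : ∀ m, D (D m) = FS Mx • m
  gr : IsGr G
  hy : ∀ i, sm M (X i) ∈ Dk G G 2

variable {G : ℤ → Submodule ℂ M} {G' : ℤ → Submodule ℂ M'}

theorem dk_KX (hM : FB Mx) (hG : IsGr G) (hy : ∀ i, sm M (X i) ∈ Dk G G 2) :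
    KX M Mx ∈ Dk (lamG G) (lamG G) 3 := by
  have h1 : ∀ i, sm (Lam M) (X i) ∈ Dk (lamG G) (lamG G) 2 := fun i => dk_cw (hy i)
  have h2 : (1 : Module.End A3 (Lam M)) ∈ Dk (lamG G) (lamG G) 0 := dk_id
  refine add_mem (Submodule.sum_mem _ fun i _ => ?_) (Submodule.sum_mem _ fun j _ => ?_)
  · rw [map_neg]
    exact dk_comp (neg_mem (h1 i)) (dk_mat (wI_lv i)) rfl
  · refine dk_comp (l := 4) ?_ (dk_mat (cI_lv j)) rfl
    rw [gj, map_add, map_sum, sm_C]
    refine add_mem (dk_smul (isGr_lam hG) (hg_mul (hg_C 2) (hM.h4 j) rfl) h2 rfl)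
      (Submodule.sum_mem _ fun i _ => ?_)
    rw [map_mul, sm_C, smul_mul_assoc, one_mul]
    exact dk_smul (isGr_lam hG) (hM.h2 i j) (h1 i) rfl

theorem cw_eps (h : M →ₗ[A3] M') (v : Lam M) : cw h (mat M eI v) = mat M' eI (cw h v) :=
  LinearMap.congr_fun (cw_mat h eI) v

theorem eps_eps' (v : Lam M) : mat M eI (mat M eI v) = v := by
  rw [← Module.End.mul_apply, eps_eps, Module.End.one_apply]

theorem KX_KX' (v : Lam M) : KX M Mx (KX M Mx v) + KX M Mx (KX M Mx v) =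
    (2 * Mx 3 3) • v - (FS Mx • v + FS Mx • v) := by
  rw [← Module.End.mul_apply, ← LinearMap.add_apply, KX_KX, map_sub, sm_C, two_mul (FS Mx), map_add]
  rfl

theorem XD.sq' (Y : XD Mx G) (v : Lam M) :
    (mat M eI ∘ₗ cw Y.D + KX M Mx) ((mat M eI ∘ₗ cw Y.D + KX M Mx) v) =
      FS Mx • v + KX M Mx (KX M Mx v) := by
  have h3 : cw Y.D (cw Y.D v) = FS Mx • v := funext fun I => Y.sq _
  rw [LinearMap.add_apply, LinearMap.add_apply, LinearMap.comp_apply, LinearMap.comp_apply,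
    map_add, map_add, map_add, cw_eps, eps_eps', h3, cw_KX Y.D Y.lin, eps_KX]
  abel

/-- the Clifford module -/
noncomputable def XD.lm (X : XD Mx G) (hM : FB Mx) : LM Mx G where
  E := mat M eI ∘ₗ cw X.D + KX M Mx
  deg := add_mem (pp_ecw (Mx := Mx) X.deg).1 (dk_KX hM X.gr X.hy)
  anti i := by
    have h1 := (pp_ecw (Mx := Mx) X.deg).2 i
    rw [neg_smul, one_smul] at h1
    have h2 : (mat M eI ∘ₗ cw X.D : Module.End A3 (Lam M)) * LL M Mx i +
      LL M Mx i * (mat M eI ∘ₗ cw X.D : Module.End A3 (Lam M)) = 0 :=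
      add_eq_zero_iff_eq_neg.2 h1
    rw [add_mul, mul_add, add_add_add_comm, h2, KX_LL hM.symm, zero_add]
  sq := by
    refine sq_of_anti (LinearMap.ext fun v => ?_)
    rw [LinearMap.add_apply, Module.End.mul_apply, X.sq', add_add_add_comm, KX_KX', add_sub_cancel,
      LinearMap.smul_apply, Module.End.one_apply]

theorem lm_apply (X : XD Mx G) (hM : FB Mx) (v : Lam M) :
    (X.lm hM).E v = mat M eI (cw X.D v) + KX M Mx v := rfl

theorem lm_in0 (Y : XD Mx G) (hM : FB Mx) (m : M) : (Y.lm hM).E (in0 M m) =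
    in0 M (Y.D m) - ∑ i, LL M Mx i (in0 M ((X i : SA) • m)) := by
  have h1 : ∀ i, (X i : SA) • in0 M m = in0 M ((X i : SA) • m) := fun i =>
    (Pi.single_smul' _ _ _).symm
  simp only [lm_apply, cw_in0, eps_in0, KX_apply, mat_in0 (cI_col _), smul_zero,
    Finset.sum_const_zero, add_zero, LL, LinearMap.add_apply, LinearMap.sum_apply,
    LinearMap.smul_apply, h1, sub_eq_add_neg]

theorem lm_in0_zero (Y : XD Mx G) (hM : FB Mx) (m : M) : (Y.lm hM).E (in0 M m) 0 = Y.D m := by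
  have h : ∀ i J, wI i 0 J = 0 := by decide +kernel
  simp only [lm_apply, cw_in0, eps_in0, KX_apply, mat_in0 (cI_col _), smul_zero,
    Finset.sum_const_zero, add_zero, Pi.add_apply, Pi.neg_apply, Finset.sum_apply, mat_apply, h,
    zero_smul, neg_zero]
  rfl

variable (M M') in
/-- the commutator with `yᵢ` -/
noncomputable def ad (i : Fin 3) : Module.End A3 (M →ₗ[A3] M') :=
  LinearMap.llcomp A3 M M' M' (sm M' (X i)) - LinearMap.lcomp A3 M' (sm M (X i))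

theorem ad_apply (i : Fin 3) (φ : M →ₗ[A3] M') :
    ad M M' i φ = sm M' (X i) ∘ₗ φ - φ ∘ₗ sm M (X i) := rfl

/-- the components of the restriction to the generators -/
noncomputable def res (ψ : Lam M →ₗ[A3] Lam M') : Lam (M →ₗ[A3] M') :=
  fun I => LinearMap.proj I ∘ₗ ψ ∘ₗ in0 M

theorem res_fil {ψ : Lam M →ₗ[A3] Lam M'} {t : ℤ} :
    res ψ ∈ Fil (M →ₗ[A3] M') t ↔ ∀ m, ψ (in0 M m) ∈ Fil M' t :=
  ⟨fun h m I hI => LinearMap.congr_fun (h I hI) m, fun h I hI => LinearMap.ext fun m => h m I hI⟩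

theorem res_d (hM : FB Mx) (Y : XD Mx G) (Y' : XD Mx G') {s : ℤ} (hs : s * s = 1)
    {ψ : Lam M →ₗ[A3] Lam M'} (hψ : ∀ i, ψ ∘ₗ LL M Mx i = s • (LL M' Mx i ∘ₗ ψ)) {t : ℤ}
    (ht : res ψ ∈ Fil (M →ₗ[A3] M') t) :
    res ((Y'.lm hM).E ∘ₗ ψ - s • (ψ ∘ₗ (Y.lm hM).E)) + del (ad M M') (res ψ) ∈
      Fil (M →ₗ[A3] M') t := by
  rw [res_fil] at ht
  intro I hI
  refine LinearMap.ext fun m => ?_
  have h1 : ∀ i v, ψ (LL M Mx i v) = s • LL M' Mx i (ψ v) := fun i => LinearMap.congr_fun (hψ i)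
  have h2 : del (ad M M') (res ψ) I m = (∑ i, mat M' (wI i)
      ((X i : SA) • ψ (in0 M m) - ψ (in0 M ((X i : SA) • m)))) I := by
    simp only [del, LinearMap.sum_apply, Finset.sum_apply, LinearMap.comp_apply, mat_apply,
      cw_apply, LinearMap.smul_apply]
    rfl
  have h3 : mat M' eI (cw Y'.D (ψ (in0 M m))) + ∑ j, gj Mx j • mat M' (cI j) (ψ (in0 M m)) -
      s • ψ (in0 M (Y.D m)) + ∑ i : Fin 3, ∑ j : Fin 3, Mx i.castSucc j.castSucc •
        mat M' (cI j) (ψ (in0 M ((X i : SA) • m))) ∈ Fil M' t := by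
    refine add_mem (sub_mem (add_mem (fil_mat eI_lv le_rfl fun J hJ => ?_)
      (Submodule.sum_mem _ fun j _ J hJ => ?_)) (zsmul_mem (ht _) _))
      (Submodule.sum_mem _ fun i _ => Submodule.sum_mem _ fun j _ =>
        Submodule.smul_mem _ _ (fil_mat (cI_lv j) (by norm_num) (ht _)))
    · rw [cw_apply, ht m J hJ, map_zero]
    · rw [Pi.smul_apply, fil_mat (cI_lv j) (by norm_num) (ht m) J hJ, smul_zero]
  rw [Pi.add_apply, LinearMap.add_apply, h2, LinearMap.zero_apply, ← h3 I hI]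
  change ((Y'.lm hM).E (ψ (in0 M m)) - s • ψ ((Y.lm hM).E (in0 M m)) + _) I = _
  refine congrFun ?_ I
  rw [lm_in0, lm_apply, KX_apply]
  simp only [map_sub, map_sum, h1, smul_sub, Finset.smul_sum, smul_smul, hs, one_smul]
  simp only [LL, LinearMap.add_apply, LinearMap.sum_apply, LinearMap.smul_apply,
    Finset.sum_add_distrib, Finset.sum_sub_distrib]
  abel

variable (G) in
/-- division by the variables -/
def Dv : Prop := ∀ i, ∃ Δ : Module.End A3 M, Δ * sm M (X i) = 1 ∧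
  (∀ m, ∃ n : ℕ, (Δ ^ n) m = 0) ∧ Δ ∈ Dk G G (-2) ∧ ∀ j, j ≠ i → Commute (sm M (X j)) Δ

theorem descend (hM : FB Mx) (Y : XD Mx G) (Y' : XD Mx G') (hv : Dv G) {s : ℤ} (hs : s * s = 1)
    {k : ℤ} (t : ℕ) (ht : t ≤ 3) {ψ : Lam M →ₗ[A3] Lam M'} (hψ : ψ ∈ PP Mx s G G' k)
    (h1 : res ψ ∈ Fil (M →ₗ[A3] M') t)
    (h2 : res ((Y'.lm hM).E ∘ₗ ψ - s • (ψ ∘ₗ (Y.lm hM).E)) ∈ Fil (M →ₗ[A3] M') 0) :
    ∃ χ ∈ PP Mx (-s) G G' (k - 3), res (ψ - ((Y'.lm hM).E ∘ₗ χ - (-s) • (χ ∘ₗ (Y.lm hM).E))) ∈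
      Fil (M →ₗ[A3] M') 0 := by
  have hs' : -s * -s = 1 := by rw [neg_mul_neg, hs]
  induction t generalizing ψ with
  | zero => exact ⟨0, zero_mem _, by simpa using h1⟩
  | succ t ih =>
    have h3 := res_d hM Y Y' hs hψ.2 h1
    have h4 : del (ad M M') (res ψ) ∈ Fil (M →ₗ[A3] M') (t + 1 : ℕ) :=
      (Submodule.add_mem_iff_right _ (fil_mono (by omega) h2)).1 h3
    obtain ⟨Z, z1, z2, z3⟩ := kos (G := Dk G G') (ad M M')
      (fun i j φ => LinearMap.ext fun m => by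
        simp only [ad_apply, LinearMap.sub_apply, LinearMap.comp_apply, sm_apply, map_sub,
          smul_sub, smul_comm (X i : SA) (X j : SA)]
        abel)
      (fun i a φ hφ => sub_mem (dk_comp (Y'.hy i) hφ rfl) (dk_comp hφ (Y.hy i) (add_comm _ _)))
      (fun i a φ hφ => by
        obtain ⟨Δ, d1, d2, d3, d4⟩ := hv i
        obtain ⟨u, u1, u2, u3⟩ := cor _ Δ (sm M' (X i)) d1 d2 d3 (Y'.hy i) hφ
        exact ⟨u, u1, u2, fun j hj h => u3 _ _ (d4 j hj) ((Commute.all _ _).map _) h⟩)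
      (by omega) (by omega) (k := k) (Φ := res ψ)
      (fun I => dk_comp (dk_proj I) (dk_comp hψ.1 dk_in0 rfl) (by ring)) h4 h1
    have e : ((t + 1 : ℕ) : ℤ) - 1 = t := by omega
    rw [e] at z2 z3
    obtain ⟨χ, hχ⟩ : ∃ χ : Lam M →ₗ[A3] Lam M', χ = exs Mx (-s) (LinearMap.pi (-Z)) := ⟨_, rfl⟩
    have c1 : χ ∈ PP Mx (-s) G G' (k - 3) := hχ ▸ pp_exs hM Y'.gr hs' fun a v ha I =>
      neg_mem (mem_of_eq (z1 I a v ha) (by ring))
    have c2 : res χ = -Z := by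
      funext I
      rw [res, hχ, exs_in0]
      rfl
    have c3 := res_d hM Y Y' hs' c1.2 (c2 ▸ neg_mem z2)
    rw [c2, map_neg] at c3
    have c4 := pp_d (Y.lm hM) (Y'.lm hM) hs' c1
    have c5 := dd_zero (Y.lm hM) (Y'.lm hM) (-s) χ
    rw [neg_neg, hs', sub_self, zero_smul] at c5
    obtain ⟨δ, hδ⟩ : ∃ δ, δ = (Y'.lm hM).E ∘ₗ χ - (-s) • (χ ∘ₗ (Y.lm hM).E) := ⟨_, rfl⟩
    rw [← hδ] at c3 c4 c5
    obtain ⟨χ', c6, c7⟩ := ih (by omega) (ψ := ψ - δ)
      (sub_mem hψ (pp_of_eq c4 (neg_neg s) (by ring)))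
      (by
        have c6 : res (ψ - δ) = res ψ - del (ad M M') Z - (res δ + -del (ad M M') Z) := by
          have : res (ψ - δ) = res ψ - res δ := rfl
          rw [this]
          abel
        rw [c6]
        exact sub_mem z3 c3)
      (by
        have c6 : (Y'.lm hM).E ∘ₗ (ψ - δ) - s • ((ψ - δ) ∘ₗ (Y.lm hM).E) =
            (Y'.lm hM).E ∘ₗ ψ - s • (ψ ∘ₗ (Y.lm hM).E) := by
          rw [← sub_zero ((Y'.lm hM).E ∘ₗ ψ - _), ← c5, LinearMap.comp_sub, LinearMap.sub_comp,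
            smul_sub]
          abel
        rw [c6]
        exact h2)
    refine ⟨χ + χ', add_mem c1 c6, ?_⟩
    have c8 : ψ - ((Y'.lm hM).E ∘ₗ (χ + χ') - (-s) • ((χ + χ') ∘ₗ (Y.lm hM).E)) =
        ψ - δ - ((Y'.lm hM).E ∘ₗ χ' - (-s) • (χ' ∘ₗ (Y.lm hM).E)) := by
      rw [hδ, LinearMap.comp_add, LinearMap.add_comp, smul_add]
      abel
    rw [c8]
    exact c7

/-- **the key lemma**: up to a boundary, a map whose differential lies in exterior degree zero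
comes from an `A[y]`-linear map -/
theorem key (hM : FB Mx) (Y : XD Mx G) (Y' : XD Mx G') (hv : Dv G) {s : ℤ} (hs : s * s = 1)
    {k : ℤ} {ψ : Lam M →ₗ[A3] Lam M'} (hψ : ψ ∈ PP Mx s G G' k)
    (h2 : res ((Y'.lm hM).E ∘ₗ ψ - s • (ψ ∘ₗ (Y.lm hM).E)) ∈ Fil (M →ₗ[A3] M') 0) :
    ∃ χ ∈ PP Mx (-s) G G' (k - 3), ∃ h ∈ Dk G G' k, (∀ (r : SA) m, h (r • m) = r • h m) ∧
      (ψ - ((Y'.lm hM).E ∘ₗ χ - (-s) • (χ ∘ₗ (Y.lm hM).E))) ∘ₗ in0 M = in0 M' ∘ₗ h := by
  have hs' : -s * -s = 1 := by rw [neg_mul_neg, hs]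
  obtain ⟨χ, c1, c2⟩ := descend hM Y Y' hv hs 3 le_rfl hψ
    (fun I hI => absurd hI (not_lt.2 (lv_le I))) h2
  have c4 := pp_d (Y.lm hM) (Y'.lm hM) hs' c1
  have c5 := dd_zero (Y.lm hM) (Y'.lm hM) (-s) χ
  rw [neg_neg, hs', sub_self, zero_smul] at c5
  refine ⟨χ, c1, ?_⟩
  obtain ⟨δ, hδ⟩ : ∃ δ, δ = (Y'.lm hM).E ∘ₗ χ - (-s) • (χ ∘ₗ (Y.lm hM).E) := ⟨_, rfl⟩
  rw [← hδ] at c2 c4 c5 ⊢
  have c3 : ψ - δ ∈ PP Mx s G G' k := sub_mem hψ (pp_of_eq c4 (neg_neg s) (by ring))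
  have c6 : (Y'.lm hM).E ∘ₗ (ψ - δ) - s • ((ψ - δ) ∘ₗ (Y.lm hM).E) =
      (Y'.lm hM).E ∘ₗ ψ - s • (ψ ∘ₗ (Y.lm hM).E) := by
    rw [← sub_zero ((Y'.lm hM).E ∘ₗ ψ - _), ← c5, LinearMap.comp_sub, LinearMap.sub_comp,
      smul_sub]
    abel
  have c7 := res_d hM Y Y' hs c3.2 c2
  rw [c6, Submodule.add_mem_iff_right _ h2, del_apply] at c7
  have c8 : ∀ i, ad M M' i (res (ψ - δ) 0) = 0 := by
    intro i
    fin_cases i
    exacts [c7 1 (by decide), c7 2 (by decide), c7 4 (by decide)]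
  refine ⟨res (ψ - δ) 0, dk_comp (dk_proj 0) (dk_comp c3.1 dk_in0 rfl) (by simp [lv]),
    fun r => ?_, LinearMap.ext fun m => funext fun I => ?_⟩
  · induction r using MvPolynomial.induction_on with
    | C a =>
      intro m
      rw [← sm_apply, ← sm_apply, sm_C, sm_C]
      exact map_smul _ _ _
    | add p q hp hq =>
      intro m
      rw [add_smul, map_add, hp, hq, add_smul]
    | mul_X p i hp =>
      intro m
      have c9 : (X i : SA) • res (ψ - δ) 0 m = res (ψ - δ) 0 ((X i : SA) • m) :=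
        sub_eq_zero.1 (LinearMap.congr_fun (c8 i) m)
      rw [mul_smul, mul_smul, hp, c9]
  · rw [LinearMap.comp_apply, LinearMap.comp_apply, in0_apply (res (ψ - δ) 0 m)]
    by_cases hI : I = 0
    · subst hI
      rfl
    · rw [Pi.single_eq_of_ne hI]
      exact res_fil.1 c2 m I (lt_of_not_ge fun h => hI (lv_zero I h))

end

end Vale.Agent.P287Z.T
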